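import Vale.Agent.P148.R2.H678.Ori2
import Vale.Agent.P148.R2.H419.Col3
import Vale.Agent.P148.R2.H565.Mc2
import Vale.Agent.P148.R2.H871.CW1

/-!
# P148: the true orientation of the comb ring

On the comb event the closed strand of the ring passes the gates in increasing order: the second
alternative of `CRing.dichotomy` is excluded by winding numbers (`H678.not_clockwise`).
-/

set_option linter.unusedSectionVars false

open Set Relation Metric Function

namespace Vale.Agent.P148.R2.H112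

open Vale.Agent.P148.R2.H258 Vale.Agent.P148.R2.H565 Vale.Agent.P148.R2.H419
open Vale.Agent.P148.R2.N (ms nc gateC gbox cell csq ms_pos)
open Vale.Agent.P148.R2.H592 (HullTri nbr nbr_symm ConnIn Fc idmap fib_id tail head vc Three comp
  graph_connected)
open Vale.Agent.P148.R2.H959 (Jn reg)
open Vale.Agent.P148.R2.H184 (dt)
open Vale.Agent.P148.R2.H995 (nsup)

/-! ### paths and sequences -/

/-- A path as a sequence. -/
theorem jn_seq {X Y : Set ℂ} {x y : ℂ} (h : Jn X Y x y) (hx : x ∈ Y) :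
    ∃ (m : ℕ) (u : ℕ → ℂ), u 0 = x ∧ u m = y ∧ (∀ i < m, nbr X (u i) (u (i + 1))) ∧
      ∀ i ≤ m, u i ∈ Y := by
  obtain ⟨m, u, h0, h1, h2⟩ := H871.exists_seq h
  refine ⟨m, u, h0, h1, fun i hi => (h2 i hi).1, fun i hi => ?_⟩
  rcases Nat.eq_zero_or_pos i with rfl | hi0
  · rw [h0]; exact hx
  · have := (h2 (i - 1) (by omega)).2.2
    rwa [Nat.sub_add_cancel hi0] at this

/-- A sequence as a path. -/
theorem seq_jn {X Y : Set ℂ} {u : ℕ → ℂ} {m : ℕ} (h : ∀ i < m, nbr X (u i) (u (i + 1)))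
    (hY : ∀ i ≤ m, u i ∈ Y) : Jn X Y (u 0) (u m) := by
  induction m with
  | zero => exact ReflTransGen.refl
  | succ m ih =>
    exact (ih (fun i hi => h i (by omega)) (fun i hi => hY i (by omega))).tail
      ⟨h m (by omega), hY m (by omega), hY (m + 1) le_rfl⟩

section walk

variable {X : Set ℂ} {b : ZMod 3 → ℂ} (h : HullTri X b) (x₀ : X)

/-- A walk of darts as a path of sites. -/
theorem walk_jn {Y : Set ℂ} {x y : X} {l : List (Fc X b × ZMod 3)} (hl : (HT h x₀).Walk x y l)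
    (hY : ∀ g ∈ l, (((HT h x₀).src g : X) : ℂ) ∈ Y ∧ (((HT h x₀).tgt g : X) : ℂ) ∈ Y) :
    Jn X Y x.1 y.1 := by
  induction hl with
  | nil v => exact ReflTransGen.refl
  | cons g w l hl ih =>
    have h1 := hY g (by simp)
    refine ReflTransGen.head ⟨HT_nbr h x₀ g, h1.1, h1.2⟩ ?_
    exact ih fun g' hg' => hY g' (List.mem_cons_of_mem _ hg')

end walk

variable {M : ℕ} {X : Set ℂ} {b : ZMod 3 → ℂ} {Bl₁ Wh₁ Bl₂ Wh₂ : Set ℂ} {s : ℂ → Bool}

section ori

variable (hC : Col M X b Bl₁ Wh₁ Bl₂ Wh₂ s)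
include hC

/-- Cores are closed under black moves, backwards. -/
theorem oco_black {u v : ℂ} (hu : s u = true) (huv : nbr X u v) (h : ∀ k, u ∉ oco M X Bl₁ k)
    (k : ℕ) : v ∉ oco M X Bl₁ k := fun hv => h k (hC.oco_step hv (nbr_symm huv) hu)

/-- The black sites which are in no outer core and not in the exterior. -/
def Bk (M : ℕ) (X Bl₁ : Set ℂ) (s : ℂ → Bool) : Set ℂ :=
  {z | z ∈ X ∧ s z = true ∧ (∀ k, z ∉ oco M X Bl₁ k) ∧ nsup z < 1 + 5 * ms M / 8}

omit hC in
theorem bk_ps : Disjoint (Bk M X Bl₁ s) (Ps M X Bl₁ s) := by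
  rw [Set.disjoint_left]
  rintro z ⟨-, h1, h2, h3⟩ ⟨-, h4 | ⟨k, h4⟩ | h4⟩
  · rw [h1] at h4; exact absurd h4 (by decide)
  · exact h2 k h4
  · linarith

variable {x₀ : X} {d : ℕ → Fc X b × ZMod 3} {P Q : ℕ → Set X}

/-- The black walks of the ring avoid the exits. -/
theorem ring_bk (hd : ∀ k, Foot hC.hull x₀ M Bl₁ Wh₁ s k (d k))
    (h : CRing (HT hC.hull x₀) (fun v => s v.1) true (nc M) d P Q (fun k => vs (reg M k))
      ⟨b 0, hC.hull.mem 0⟩) {k : ℕ} {v : X} (hv : v ∈ P k) : (v : ℂ) ∈ Bk M X Bl₁ s := by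
  refine ⟨v.2, h.colP k v hv, ?_, (H959.reg_nsup hC.hM (h.subP k hv)).2⟩
  obtain ⟨l, hl, hlm⟩ := h.pc k _ (h.s1 k) _ hv
  have key : Jn X {z | z ∈ X ∧ s z = true} ((HT hC.hull x₀).src (d k)).1 v.1 :=
    walk_jn hC.hull x₀ hl fun g hg => ⟨⟨Subtype.coe_prop _, h.colP k _ (hlm g hg).1⟩,
      ⟨Subtype.coe_prop _, h.colP k _ (hlm g hg).2⟩⟩
  have : ∀ z, Jn X {z | z ∈ X ∧ s z = true} ((HT hC.hull x₀).src (d k)).1 z →
      ∀ j, z ∉ oco M X Bl₁ j := by
    intro z hz
    induction hz with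
    | refl => exact Foot.src_oco hC (hd k)
    | @tail p q _ hpq ih => exact oco_black hC hpq.2.1.2 hpq.1 ih
  exact this _ key

/-- The vertices of the black walks. -/
def PU (P : ℕ → Set X) : Set ℂ := {z | ∃ k, ∃ v ∈ P k, (v : ℂ) = z}

/-- The black walks are joined. -/
theorem ring_join
    (h : CRing (HT hC.hull x₀) (fun v => s v.1) true (nc M) d P Q (fun k => vs (reg M k))
      ⟨b 0, hC.hull.mem 0⟩) {k : ℕ} {v : X} (hv : v ∈ P k) :
    Jn X (PU P) v.1 ((HT hC.hull x₀).src (d 0)).1 := by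
  have h1 : ∀ k, ∀ x ∈ P k, ∀ y ∈ P k, Jn X (PU P) x.1 y.1 := by
    intro k x hx y hy
    obtain ⟨l, hl, hlm⟩ := h.pc k x hx y hy
    exact walk_jn hC.hull x₀ hl fun g hg => ⟨⟨k, _, (hlm g hg).1, rfl⟩, ⟨k, _, (hlm g hg).2, rfl⟩⟩
  have h2 : ∀ k, Jn X (PU P) ((HT hC.hull x₀).src (d k)).1 ((HT hC.hull x₀).src (d 0)).1 := by
    intro k
    induction k with
    | zero => exact ReflTransGen.refl
    | succ k ih => exact (h1 k _ (h.s2 k) _ (h.s1 k)).trans ih
  exact (h1 k v hv _ (h.s1 k)).trans (h2 k)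

/-- Every path from the inside to the outside meets the black walks. -/
theorem ring_hit (hdp : ∀ k, d (k + nc M) = d k)
    (hd : ∀ k, Foot hC.hull x₀ M Bl₁ Wh₁ s k (d k))
    (h : CRing (HT hC.hull x₀) (fun v => s v.1) true (nc M) d P Q (fun k => vs (reg M k))
      ⟨b 0, hC.hull.mem 0⟩) {m : ℕ} {u : ℕ → ℂ} (hu : ∀ i < m, nbr X (u i) (u (i + 1)))
    (hu0 : nsup (u 0) ≤ 1 - ms M / 8) (hu1 : u m = b 0) : ∃ i ≤ m, u i ∈ PU P := by
  have hms := ms_pos hC.hM
  have hb := hC.far 0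
  obtain ⟨i, hi, k, v, hv, h1⟩ := ring_meets hC.hull x₀ hC.hM (P := P)
    (p := fun k => (HT hC.hull x₀).src (d k)) h.pc h.s1 h.s2
    (by have := hdp 0; rw [zero_add] at this; simp only [this])
    (fun k => Foot.src_gbox hC (hd k)) (fun k v hv => h.subP k hv) hu hu0
    (by rw [hu1]; linarith)
  exact ⟨i, hi, k, v, hv, h1⟩

end ori

/-! ### the closed strand -/

section strand

variable {V D : Type*} {T : Tri V D} {σ : V → Bool} {o : D}

theorem st_step (hb : T.Bi σ o) :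
    (T.src (T.st σ o) = T.apex o ∧ T.tgt (T.st σ o) = T.tgt o) ∨
      (T.src (T.st σ o) = T.src o ∧ T.tgt (T.st σ o) = T.apex o) := by
  by_cases hm : T.Mi σ o
  · exact Or.inl ⟨T.src_st_mi hm, T.tgt_st_mi hm⟩
  · exact Or.inr ⟨T.src_st_nmi hb hm, T.tgt_st_nmi hb hm⟩

end strand

section ori

variable (hC : Col M X b Bl₁ Wh₁ Bl₂ Wh₂ s)
include hC

variable {x₀ : X} {d : ℕ → Fc X b × ZMod 3} {P Q : ℕ → Set X}

/-- **The ring is not passed in decreasing order.** -/
theorem not_rev {i₀ : ℂ} (hi₀ : i₀ ∈ X) (hin : nsup i₀ ≤ 1 - ms M / 8)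
    (hdp : ∀ k, d (k + nc M) = d k) (hd : ∀ k, Foot hC.hull x₀ M Bl₁ Wh₁ s k (d k))
    (h : CRing (HT hC.hull x₀) (fun v => s v.1) true (nc M) d P Q (fun k => vs (reg M k))
      ⟨b 0, hC.hull.mem 0⟩) {g₀ : Fc X b × ZMod 3}
    (hg : (HT hC.hull x₀).src g₀ = ⟨b 0, hC.hull.mem 0⟩)
    (hrev : Pos (HT hC.hull x₀) (fun v => s v.1) (vs (reg M (ri (nc M) 0 - 1))) g₀
      (d (ri (nc M) 0)) (d (ri (nc M) 1))) : False := by
  classical
  have hM := hC.hM
  have hms := ms_pos hM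
  have hms1 := N.ms_le_one (M := M)
  have : Finite (Fc X b) := hC.hull.finite_Fc
  set T := HT hC.hull x₀ with hT
  set σ : X → Bool := fun v => s v.1 with hσ
  set K := nc M with hK
  have hK0 : 0 < K := H565.nc_pos M
  have hXp : ∀ k, (fun k => vs (reg M k) : ℕ → Set X) (k + K) = (fun k => vs (reg M k)) k := by
    intro k
    simp only [hK, H959.reg_add_nc]
  have hR := h.reverse hXp
  have hXr : ∀ k, (fun k => (vs (reg M (ri K k - 1)) : Set X)) (k + K) =
      (fun k => (vs (reg M (ri K k - 1)) : Set X)) k := by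
    intro k
    simp only [ri_per]
  obtain ⟨t, hL, hit, hseen⟩ := hR.exists_loopT (HT_planar hC.hull x₀) hXr hg hrev
  set o := d (ri K 0) with ho
  have ho0 : o = d 0 := by
    rw [ho]
    have e : ri K 0 = 0 + K := by unfold ri; simp
    rw [e, hdp]
  have hbi : T.Bi σ o := hL.bi
  -- the vertices
  set l : ℕ → ℂ := fun i => ((T.src ((T.st σ)^[i] o) : X) : ℂ) with hl
  set r : ℕ → ℂ := fun i => ((T.tgt ((T.st σ)^[i] o) : X) : ℂ) with hr
  set a : ℕ → ℂ := fun i => ((T.apex ((T.st σ)^[i] o) : X) : ℂ) with ha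
  have hbi' : ∀ i, T.Bi σ ((T.st σ)^[i] o) := fun i => (T.bi_iter i).2 hbi
  set N := t K with hN
  have hNper : N = H871.per T σ o := by
    have := hL.per 0
    rw [zero_add, hL.zero, zero_add] at this
    exact this
  have hstN : (T.st σ)^[N] o = o := by
    have := hit K
    rw [this, ho]
    congr 1
    unfold ri
    simp
  have hN0 : 0 < N := by
    have h1 := hL.strictMono hK0
    rw [hL.zero] at h1
    exact h1
  -- everything seen is in a region
  have hpiece : ∀ i < N, ∃ k, T.src ((T.st σ)^[i] o) ∈ (vs (reg M k) : Set X) ∧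
      T.tgt ((T.st σ)^[i] o) ∈ (vs (reg M k) : Set X) := by
    intro i hi
    have hex : ∃ k, i < t (k + 1) := ⟨K - 1, by rw [Nat.sub_add_cancel hK0]; exact hi⟩
    have h1 := Nat.find_spec hex
    have h2 : t (Nat.find hex) ≤ i := by
      by_contra h3
      push Not at h3
      rcases Nat.eq_zero_or_pos (Nat.find hex) with h4 | h4
      · rw [h4, hL.zero] at h3; omega
      · refine Nat.find_min hex (m := Nat.find hex - 1) (by omega) ?_
        rw [show Nat.find hex - 1 + 1 = Nat.find hex by omega]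
        exact h3
    have h3 := hseen _ i h2 h1
    exact ⟨_, h3.1, h3.2.1⟩
  have hcyc : ∀ i ≤ N, ∃ i' < N, (T.st σ)^[i] o = (T.st σ)^[i'] o := by
    intro i hi
    rcases hi.lt_or_eq with h1 | h1
    · exact ⟨i, h1, rfl⟩
    · exact ⟨0, hN0, by rw [h1, hstN]; rfl⟩
  have hcol : ∀ i, s (l i) = true := by
    intro i
    have h1 : σ (T.src ((T.st σ)^[i] o)) = σ (T.src o) := T.col_src_iter σ o i
    have h2 : σ (T.src o) = true := by rw [ho0]; exact Foot.src_black hC (hd 0)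
    exact h1.trans h2
  have hcolr : ∀ i, s (r i) = false := by
    intro i
    have h1 := hbi' i
    have h2 : σ (T.src ((T.st σ)^[i] o)) = true := hcol i
    have h3 : σ (T.tgt ((T.st σ)^[i] o)) ≠ true := fun h4 => h1 (by rw [h2, h4])
    exact Bool.eq_false_iff.2 h3
  have hstep : ∀ i, (l (i + 1) = a i ∧ r (i + 1) = r i) ∨ (l (i + 1) = l i ∧ r (i + 1) = a i) := by
    intro i
    have h1 := st_step (hbi' i)
    rw [← iterate_succ_apply' (T.st σ) i o] at h1
    rcases h1 with ⟨h2, h3⟩ | ⟨h2, h3⟩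
    · exact Or.inl ⟨congrArg Subtype.val h2, congrArg Subtype.val h3⟩
    · exact Or.inr ⟨congrArg Subtype.val h2, congrArg Subtype.val h3⟩
  -- faces
  have hface : ∀ i < N, nbr X (l i) (r i) ∧ nbr X (r i) (a i) ∧ nbr X (a i) (l i) ∧
      0 < H592.cr (l i) (r i) (a i) := by
    intro i hi
    set q := (T.st σ)^[i] o with hq
    have e1 : nbr X (l i) (r i) := HT_nbr hC.hull x₀ q
    have e2 : nbr X (r i) (a i) := by
      have := HT_nbr hC.hull x₀ (T.nxt q)
      rwa [T.src_nxt', T.tgt_nxt] at this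
    have e3 : nbr X (a i) (l i) := by
      have := HT_nbr hC.hull x₀ (T.nxt (T.nxt q))
      rwa [T.src_nxt2, T.tgt_nxt2] at this
    refine ⟨e1, e2, e3, ?_⟩
    obtain ⟨k, hk, -⟩ := hpiece i hi
    have hnb : ∀ j, l i ≠ b j := by
      intro j he
      have h1 : l i ∈ reg M k := hk
      rw [he] at h1
      exact hC.b_reg k j h1
    have hLF := LF_univ_dt (h := hC.hull) (q := q) (fun j => by
      have : (dt q).1 = l i := (HT_src hC.hull x₀ q).symm
      rw [this]; exact hnb j)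
    have e4 : (dt q) = (l i, r i, a i) := by
      have h1 := HT_src hC.hull x₀ q
      have h2 := HT_tgt hC.hull x₀ q
      have h3 := HT_apex hC.hull x₀ q
      show (tail q, head q, vc q.1 q.2) = _
      rw [← h1, ← h2, ← h3]
    rw [e4] at hLF
    exact hLF.2.1
  -- left vertices are in `Bk`
  have hoco : ∀ i k, l i ∉ oco M X Bl₁ k := by
    intro i
    induction i with
    | zero =>
      intro k
      have h1 : l 0 = ((T.src (d 0) : X) : ℂ) := by
        show ((T.src ((T.st σ)^[0] o) : X) : ℂ) = _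
        rw [iterate_zero, id, ho0]
      rw [h1]
      exact Foot.src_oco hC (hd 0) k
    | succ i ih =>
      rcases hstep i with ⟨h1, -⟩ | ⟨h1, -⟩
      · intro k
        rw [h1]
        have e3 : nbr X (a i) (l i) := by
          have := HT_nbr hC.hull x₀ (T.nxt (T.nxt ((T.st σ)^[i] o)))
          rwa [T.src_nxt2, T.tgt_nxt2] at this
        exact oco_black hC (hcol i) (nbr_symm e3) ih k
      · rw [h1]; exact ih
  have hlB : ∀ i ≤ N, l i ∈ Bk M X Bl₁ s := by
    intro i hi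
    refine ⟨Subtype.coe_prop _, hcol i, hoco i, ?_⟩
    obtain ⟨i', hi', he⟩ := hcyc i hi
    obtain ⟨k, hk, -⟩ := hpiece i' hi'
    have : l i = l i' := by
      show ((T.src ((T.st σ)^[i] o) : X) : ℂ) = _
      rw [he]
    rw [this]
    exact (H959.reg_nsup hM hk).2
  -- feet
  have hri : ∀ k, 1 ≤ ri K k := fun k => by unfold ri; have := Nat.mod_lt k hK0; omega
  have hnext : ∀ k, d (ri K (k + 1)) = d (ri K k - 1) := by
    intro k
    have hd0 : d K = d 0 := by have := hdp 0; rwa [zero_add] at this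
    have hr' := Nat.mod_lt k hK0
    unfold ri
    rcases (show k % K + 1 ≤ K from hr').lt_or_eq with h1 | h1
    · have : (k + 1) % K = k % K + 1 := by
        rw [Nat.add_mod, Nat.mod_eq_of_lt (show 1 < K by omega), Nat.mod_eq_of_lt h1]
      rw [this]
      congr 1
    · have : (k + 1) % K = 0 := by
        have h4 : 1 < K := by have := h.four; omega
        rw [Nat.add_mod, Nat.mod_eq_of_lt h4, h1, Nat.mod_self]
      rw [this, show K - k % K - 1 = 0 by omega, Nat.sub_zero, hd0]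
  have htg : ∀ k, ((T.tgt (d k) : X) : ℂ) ∈ gbox M k := fun k => (hd k).2.2.1
  have hrt : ∀ k, r (t k) ∈ gbox M (ri K k) := by
    intro k
    have h1 : (T.st σ)^[t k] o = d (ri K k) := hit k
    show ((T.tgt ((T.st σ)^[t k] o) : X) : ℂ) ∈ _
    rw [h1]; exact htg _
  have hrt' : ∀ k, r (t (k + 1)) ∈ gbox M (ri K k - 1) := by
    intro k
    have h1 : (T.st σ)^[t (k + 1)] o = d (ri K k - 1) := (hit (k + 1)).trans (hnext k)
    show ((T.tgt ((T.st σ)^[t (k + 1)] o) : X) : ℂ) ∈ _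
    rw [h1]; exact htg _
  -- the first path
  have htE : T.tgt (d 0) ∈ vs {z | z ∈ EK M X Bl₁ Wh₁ Bl₂ Wh₂ univ ∅ ∧ s z = false} := by
    refine Foot.tgt_mem hC (hd 0) ?_ (disjoint_empty _)
    have := H678.outHub_sub_EJ (M := M) (X := X) (Bl := H678.mB M X Bl₁ Wh₁ Bl₂)
      (Wh := H678.mW M X Bl₁ Wh₁ Wh₂) (K := univ) (J := ∅) (mem_univ 0)
    rwa [H678.outHub_mix] at this
  have hexit := hC.exit htE.1
  have hr0 : r 0 = ((T.tgt (d 0) : X) : ℂ) := by
    show ((T.tgt ((T.st σ)^[0] o) : X) : ℂ) = _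
    rw [iterate_zero, id, ho0]
  rw [← hr0] at hexit
  have hr0P : r 0 ∈ Ps M X Bl₁ s := ⟨Subtype.coe_prop _, Or.inl (hcolr 0)⟩
  have hexit' : Jn X (Ps M X Bl₁ s) (r 0) (b 0) :=
    H959.Jn.mono (union_subset Subset.rfl (by rintro z rfl; exact hr0P)) hexit
  obtain ⟨m₁, u₁, hu0, hum, hu1, hu2⟩ := jn_seq hexit' hr0P
  -- right vertices are joined by whites
  have hwr : ∀ j, Jn X (Ps M X Bl₁ s) (r j) (r 0) := by
    intro j
    induction j with
    | zero => exact ReflTransGen.refl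
    | succ j ih =>
      rcases hstep j with ⟨-, h1⟩ | ⟨-, h1⟩
      · rw [h1]; exact ih
      · refine ReflTransGen.head ⟨?_, ⟨Subtype.coe_prop _, Or.inl (hcolr (j + 1))⟩,
          ⟨Subtype.coe_prop _, Or.inl (hcolr j)⟩⟩ ih
        rw [h1]
        have := HT_nbr hC.hull x₀ (T.nxt ((T.st σ)^[j] o))
        rw [T.src_nxt', T.tgt_nxt] at this
        exact nbr_symm this
  -- the second path
  have hu₂ : ∃ (m : ℕ) (u : ℕ → ℂ), nsup (u 0) ≤ 1 - ms M / 8 ∧ u m = l 0 ∧
      (∀ i < m, nbr X (u i) (u (i + 1))) ∧ ∀ i ≤ m, ∀ j ≤ N, u i ≠ r j := by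
    have hcon : Jn X X i₀ (b 0) :=
      ReflTransGen.mono (fun a c (h : nbr X a c) => ⟨h, h.1, h.2.1⟩) _ _
        (graph_connected hC.hull.fin hi₀ (hC.hull.mem 0))
    obtain ⟨m, u, a1, a2, a3, a4⟩ := jn_seq hcon hi₀
    have hex : ∃ i, i ≤ m ∧ u i ∈ PU P := by
      obtain ⟨i, hi, h1⟩ := ring_hit hC hdp hd h a3 (by rw [a1]; exact hin) a2
      exact ⟨i, hi, h1⟩
    set n := Nat.find hex with hn
    obtain ⟨hnm, hnP⟩ := Nat.find_spec hex
    have hbefore : ∀ i < n, u i ∉ PU P := fun i hi hh =>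
      Nat.find_min hex hi ⟨by omega, hh⟩
    have hPUb : ∀ z ∈ PU P, z ∈ Bk M X Bl₁ s := by
      rintro z ⟨k, v, hv, rfl⟩
      exact ring_bk hC hd h hv
    have hPUw : ∀ z ∈ PU P, ∀ j, z ≠ r j := by
      intro z hz j he
      have h1 := (hPUb z hz).2.1
      rw [he, hcolr j] at h1
      exact absurd h1 (by decide)
    -- before the first hit there is no right vertex
    have hoff : ∀ i < n, ∀ j, u i ≠ r j := by
      intro i hi j he
      have h1 : Jn X {z | z ∈ X ∧ z ∉ PU P} (u 0) (u i) :=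
        seq_jn (fun k hk => a3 k (by omega)) fun k hk => ⟨a4 k (by omega), hbefore k (by omega)⟩
      have h2 : Jn X {z | z ∈ X ∧ z ∉ PU P} (u i) (b 0) := by
        rw [he]
        have h5 : Jn X (Ps M X Bl₁ s) (r j) (b 0) := (hwr j).trans hexit'
        refine H959.Jn.mono ?_ h5
        intro z hz
        exact ⟨Ps_sub hz, fun hz' => Set.disjoint_left.1 bk_ps (hPUb z hz') hz⟩
      obtain ⟨m', u', c1, c2, c3, c4⟩ := jn_seq (h1.trans h2)
        ⟨a4 0 (Nat.zero_le m), hbefore 0 (by omega)⟩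
      obtain ⟨i', hi', h3⟩ := ring_hit hC hdp hd h c3 (by rw [c1, a1]; exact hin) c2
      exact (c4 i' hi').2 h3
    -- the path
    obtain ⟨k, v, hv, hvn⟩ := hnP
    rw [← hn] at hvn
    have hjoin := ring_join hC h hv
    rw [hvn] at hjoin
    have h1 : Jn X {z | z ∈ X ∧ ∀ j, z ≠ r j} (u 0) (u n) :=
      seq_jn (fun k hk => a3 k (by omega)) fun k hk => ⟨a4 k (by omega), by
        rcases (show k ≤ n from hk).lt_or_eq with h5 | h5
        · exact hoff k h5
        · rw [h5]; exact hPUw _ ⟨_, v, hv, hvn⟩⟩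
    have h2 : Jn X {z | z ∈ X ∧ ∀ j, z ≠ r j} (u n) (l 0) := by
      have e : l 0 = ((T.src (d 0) : X) : ℂ) := by
        show ((T.src ((T.st σ)^[0] o) : X) : ℂ) = _
        rw [iterate_zero, id, ho0]
      rw [e]
      refine H959.Jn.mono ?_ hjoin
      intro z hz
      exact ⟨(hPUb z hz).1, hPUw z hz⟩
    have hu0m : u 0 ∈ {z | z ∈ X ∧ ∀ j, z ≠ r j} := by
      refine ⟨a4 0 (Nat.zero_le m), ?_⟩
      rcases Nat.eq_zero_or_pos n with h5 | h5
      · rw [h5] at hvn; exact hPUw _ ⟨_, v, hv, hvn⟩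
      · exact hoff 0 h5
    obtain ⟨m', u', c1, c2, c3, c4⟩ := jn_seq (h1.trans h2) hu0m
    exact ⟨m', u', by rw [c1, a1]; exact hin, c2, c3, fun i hi j _ => (c4 i hi).2 j⟩
  obtain ⟨m₂, u₂, b0, b1, b2, b3⟩ := hu₂
  -- conclusion
  have hbf := hC.far 0
  refine H678.not_clockwise hC.hull.fin hC.hull.three (N := N) (l := l) (r := r) (a := a) hN0 hface
    (fun i _ => hstep i) (by show ((T.src ((T.st σ)^[N] o) : X) : ℂ) = _; rw [hstN]; rfl)
    (by show ((T.tgt ((T.st σ)^[N] o) : X) : ℂ) = _; rw [hstN]; rfl)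
    (Bk := Bk M X Bl₁ s) (Wt := {z | z ∈ X ∧ s z = false}) (fun z hz => hz.1) (fun z hz => hz.1)
    (by
      rw [Set.disjoint_left]
      rintro z ⟨-, h1, -⟩ ⟨-, h2⟩
      rw [h1] at h2; exact absurd h2 (by decide))
    hlB (fun i _ => ⟨Subtype.coe_prop _, hcolr i⟩) (K := K) hK0 (t := t) hL.zero rfl
    (fun k _ => (hL.inc k).le) (C := fun k => reg M (ri K k - 1))
    (fun k _ => H959.convex_reg M _) (fun k _ => H959.isOpen_reg M _)
    ?_ (ρ := 1 - ms M / 8) (ρ' := 1 + 5 * ms M / 8) (by linarith)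
    (fun k _ z hz => (H959.reg_nsup hM hz).1) (fun i hi => (hlB i hi).2.2.2) ?_ hu1 hu0
    (by rw [hum]; linarith) (fun i hi hh => Set.disjoint_left.1 bk_ps hh (hu2 i hi)) b2 b0 b1 b3
  · intro k hk i h1 h2
    rcases h2.lt_or_eq with h3 | h3
    · exact (hseen k i h1 h3).2.1
    · rw [h3]
      exact H959.gbox_subset_reg M _ (hrt' k)
  · intro k hk
    have h1 := hrt k
    have h2 := hrt' k
    have e : ri K k = (ri K k - 1) + 1 := (Nat.sub_add_cancel (hri k)).symm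
    rw [e] at h1
    have h3 := H995.gbox_pos hM h2 h1
    have e2 : ((starRingEnd ℂ) (r (t k)) * r (t (k + 1))).im =
        -((starRingEnd ℂ) (r (t (k + 1))) * r (t k)).im := by
      simp only [Complex.mul_im, Complex.conj_re, Complex.conj_im]
      ring
    rw [e2]
    linarith

/-- **The true orientation.** -/
theorem pos_ring {i₀ : ℂ} (hi₀ : i₀ ∈ X) (hin : nsup i₀ ≤ 1 - ms M / 8)
    (hdp : ∀ k, d (k + nc M) = d k) (hd : ∀ k, Foot hC.hull x₀ M Bl₁ Wh₁ s k (d k))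
    (h : CRing (HT hC.hull x₀) (fun v => s v.1) true (nc M) d P Q (fun k => vs (reg M k))
      ⟨b 0, hC.hull.mem 0⟩) {g₀ : Fc X b × ZMod 3}
    (hg : (HT hC.hull x₀).src g₀ = ⟨b 0, hC.hull.mem 0⟩) (k : ℕ) :
    Pos (HT hC.hull x₀) (fun v => s v.1) (vs (reg M k)) g₀ (d k) (d (k + 1)) := by
  have : Finite (Fc X b) := hC.hull.finite_Fc
  have hXp : ∀ k, (fun k => vs (reg M k) : ℕ → Set X) (k + nc M) = (fun k => vs (reg M k)) k := by
    intro k
    simp only [H959.reg_add_nc]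
  rcases h.dichotomy (HT_planar hC.hull x₀) hXp hg with h1 | h1
  · exact h1 k
  · exact (not_rev hC hi₀ hin hdp hd h hg (h1 0)).elim

/-- **The comb ring, with its orientation and its times**: for every admissible choice of the feet
the strand of the foot of gate `0` passes the feet in increasing order, and everything seen in piece
`k` is in `reg M k`. -/
theorem comb_loop {i₀ : ℂ} (hi₀ : i₀ ∈ X) (hin : nsup i₀ ≤ 1 - ms M / 8) (x₀ : X)
    (hdp : ∀ k, d (k + nc M) = d k) (hd : ∀ k, Foot hC.hull x₀ M Bl₁ Wh₁ s k (d k)) :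
    ∃ P Q, CRing (HT hC.hull x₀) (fun v => s v.1) true (nc M) d P Q (fun k => vs (reg M k))
        ⟨b 0, hC.hull.mem 0⟩ ∧
      (∀ g₀, (HT hC.hull x₀).src g₀ = ⟨b 0, hC.hull.mem 0⟩ → ∀ k,
        Pos (HT hC.hull x₀) (fun v => s v.1) (vs (reg M k)) g₀ (d k) (d (k + 1))) ∧
      ∃ t, LoopT (HT hC.hull x₀) (fun v => s v.1) (nc M) (d 0) t ∧
        (∀ k, ((HT hC.hull x₀).st (fun v => s v.1))^[t k] (d 0) = d k) ∧
        ∀ k n, t k ≤ n → n < t (k + 1) →
          (HT hC.hull x₀).src (((HT hC.hull x₀).st (fun v => s v.1))^[n] (d 0)) ∈ vs (reg M k) ∧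
          (HT hC.hull x₀).tgt (((HT hC.hull x₀).st (fun v => s v.1))^[n] (d 0)) ∈ vs (reg M k) ∧
          (HT hC.hull x₀).apex (((HT hC.hull x₀).st (fun v => s v.1))^[n] (d 0)) ∈ vs (reg M k) := by
  have : Finite (Fc X b) := hC.hull.finite_Fc
  have hXp : ∀ k, (fun k => vs (reg M k) : ℕ → Set X) (k + nc M) = (fun k => vs (reg M k)) k := by
    intro k
    simp only [H959.reg_add_nc]
  obtain ⟨P, Q, h⟩ := ((hC.hubs x₀).comb (HT_planar hC.hull x₀) hdp hd).cring
  have hpos : ∀ g₀, (HT hC.hull x₀).src g₀ = ⟨b 0, hC.hull.mem 0⟩ → ∀ k,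
      Pos (HT hC.hull x₀) (fun v => s v.1) (vs (reg M k)) g₀ (d k) (d (k + 1)) :=
    fun g₀ hg k => pos_ring hC hi₀ hin hdp hd h hg k
  refine ⟨P, Q, h, hpos, ?_⟩
  obtain ⟨g₀, hg, -⟩ := HT_dart hC.hull x₀ (x := ⟨b 0, hC.hull.mem 0⟩)
    (y := ⟨b (0 + 2), hC.hull.mem _⟩) (by
      have := hC.hull.nbr_hull (0 + 2)
      rw [show ((0 : ZMod 3) + 2 + 1) = 0 by decide] at this
      exact this)
  exact h.exists_loopT (HT_planar hC.hull x₀) hXp hg (hpos g₀ hg 0)

end ori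

end Vale.Agent.P148.R2.H112
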