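import Vale.Agent.P148.R2.H112.Frame
import Vale.Agent.P148.R2.H678.Br

/-!
# P148: the frame of the total world of helper678
-/

open Set Metric Relation Filter Function
open scoped Classical

namespace Vale.Agent.P148.R2.H112

open Vale.Agent.P148.R2.H258 Vale.Agent.P148.R2.H565 Vale.Agent.P148.R2.H419
open Vale.Agent.P148.R2.N (ms nc gateC gbox cell csq ms_pos)
open Vale.Agent.P148.R2.H592 (HullTri nbr Fc)
open Vale.Agent.P148.R2.H995 (nsup)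
open Vale.Agent.P148.R2.H609 (TP)
open Vale.Agent.P148.R2.H172 (Frame combLaw cs)
open Vale.Agent.P148.R2.H678 (wd wrd cw ctr ctr_mem nsup_le_norm)
open Vale.Agent.P148.R2.H938 (pc)

variable {M : ℕ} {X : Set ℂ} {b : ZMod 3 → ℂ}

theorem far_of (hM : 8 ≤ M) (hb : ∀ j, 3 / 2 ≤ nsup (b j)) (j : ZMod 3) :
    1 + 2 * ms M ≤ nsup (b j) := by
  have := H659.ms_le_eighth hM
  have := hb j
  linarith

theorem ctr_half (hX : (X ∩ ball (0 : ℂ) (1 / 2)).Nonempty) : nsup (ctr X) ≤ 1 / 2 := by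
  have h2 := (ctr_mem hX).2
  rw [mem_ball_zero_iff] at h2
  have h3 := nsup_le_norm (ctr X)
  linarith

/-- The frame of a world with the explored set of comb data. -/
theorem frame_wrd (h : HullTri X b) {Bl₁ Wh₁ Bl₂ Wh₂ : Set ℂ} {s : ℂ → Bool}
    (hC : Col M X b Bl₁ Wh₁ Bl₂ Wh₂ s) (hM : 8 ≤ M) (hb : ∀ j, 3 / 2 ≤ nsup (b j))
    (hX : (X ∩ ball (0 : ℂ) (1 / 2)).Nonempty) (x₀ : X) {col : X → Bool}
    (hcol : ∀ v : X, s v.1 = col v) {d : ℕ → Fc X b × ZMod 3} (hdp : ∀ k, d (k + nc M) = d k)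
    (hd : ∀ k, H419.Foot h x₀ M Bl₁ Wh₁ s k (d k)) :
    ∃ F : Frame M (wrd h (H419.E0 M X Bl₁ Wh₁ Bl₂ Wh₂)) x₀ col, F.o = d 0 ∧
      ∀ k, ((TP (wrd h (H419.E0 M X Bl₁ Wh₁ Bl₂ Wh₂)) x₀).st col)^[F.t k] F.o = d k := by
  have hw := H678.wrd_B (h := h) (H678.wc_of_col hC hX)
  exact exists_frame (wrd h (H419.E0 M X Bl₁ Wh₁ Bl₂ Wh₂)) x₀ hcol hC hM hb (ctr_mem hX).1
    (ctr_half hX) hw hdp hd

variable [Fintype X]

/-- **The frame of world 0 of a good pair of colourings.** -/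
theorem frame_wd (hM0 : 0 < M) (h : HullTri X b) (hM : 8 ≤ M) (hb : ∀ j, 3 / 2 ≤ nsup (b j))
    (hX : (X ∩ ball (0 : ℂ) (1 / 2)).Nonempty) {c₁ c₂ : X → Bool}
    (hA : (combLaw hM0 X (Subtype.val : X → ℂ)).A0 c₁ c₂) (x₀ : X)
    {d : ℕ → Fc X b × ZMod 3} (hdp : ∀ k, d (k + nc M) = d k)
    (hd : ∀ k, H419.Foot h x₀ M (pc Subtype.val true c₁) (pc Subtype.val false c₁)
      (cs Subtype.val (cw M c₁ c₂)) k (d k)) :
    ∃ F : Frame M (wd h M (cw M c₁ c₂)) x₀ (cw M c₁ c₂), F.o = d 0 ∧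
      ∀ k, ((TP (wd h M (cw M c₁ c₂)) x₀).st (cw M c₁ c₂))^[F.t k] F.o = d k := by
  have hC := H678.col_of_A0 hM0 h (far_of hM hb) hA
  have key := frame_wrd h hC hM hb hX x₀ (col := cw M c₁ c₂) (H678.cs_val _) hdp hd
  rw [← H678.E0X_eq] at key
  exact key

theorem nonempty_frame_wd (hM0 : 0 < M) (h : HullTri X b) (hM : 8 ≤ M)
    (hb : ∀ j, 3 / 2 ≤ nsup (b j)) (hX : (X ∩ ball (0 : ℂ) (1 / 2)).Nonempty) {c₁ c₂ : X → Bool}
    (hA : (combLaw hM0 X (Subtype.val : X → ℂ)).A0 c₁ c₂) (x₀ : X) :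
    Nonempty (Frame M (wd h M (cw M c₁ c₂)) x₀ (cw M c₁ c₂)) := by
  have hC := H678.col_of_A0 hM0 h (far_of hM hb) hA
  obtain ⟨d, hdp, hd⟩ := hC.exists_feet x₀
  obtain ⟨F, -, -⟩ := frame_wd hM0 h hM hb hX hA x₀ hdp hd
  exact ⟨F⟩

end Vale.Agent.P148.R2.H112
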