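import Vale.Agent.P148.R2.H112.CalGd
import Vale.Agent.P148.R2.H251.W3g

/-!
# P148, row CAL: what the span of the closed case sees

`clo_seen` : the span with the smallest time; it sees free vertices and the third arc only.
`clo_all` : the same on a marked frame, with the times of the contacts and of the link.
`dist_gate`, `dist_gates` : positions of the ends of a chain against the gates.
-/

open Set Metric Function
open scoped Classical

namespace Vale.Agent.P148.R2.H112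

open Vale.Agent.P148.R2.H258
open Vale.Agent.P148.R2.N (ms nc gateC cellC csq ms_pos)
open Vale.Agent.P148.R2.H566 (W0)
open Vale.Agent.P148.R2.H609 (TP piX)
open Vale.Agent.P148.R2.H172 (Frame)
open Vale.Agent.P148.R2.H251 (InArc W3 Path3)
open Vale.Agent.P148.R2.H959 (reg Mrk ag bg)
open Vale.Agent.P148.R2.H897 (Sn)
open Vale.Agent.P148.R2.H838 (Joined)
open Vale.Agent.P148.R2.H871 (per)

/-! ### positions -/

section pos

variable {M : ℕ}

/-- A point of a region is near the gates with a near index. -/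
theorem dist_gate (hM : 0 < M) {g k : ℕ} (h1 : g ≤ k + 7) (h2 : k ≤ g + 7) {x : ℂ}
    (hx : x ∈ reg M k) : ‖x - gateC M g‖ ≤ 12 * ms M := by
  have := near_gate hM h1 h2 hx
  rw [mem_ball, Complex.dist_eq] at this
  exact this.le

/-- **The ends of a chain against the gates.** -/
theorem dist_gates (hM : 0 < M) {a b p q : ℕ} (ha : a ≤ p + 7) (ha' : p ≤ a + 7)
    (hb : b ≤ q + 7) (hb' : q ≤ b + 7) {x y : ℂ} (hx : x ∈ reg M p) (hy : y ∈ reg M q) :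
    ‖(x - y) - (gateC M a - gateC M b)‖ ≤ 24 * ms M := by
  have h1 := dist_gate hM ha ha' hx
  have h2 := dist_gate hM hb hb' hy
  have e : (x - y) - (gateC M a - gateC M b) = (x - gateC M a) - (y - gateC M b) := by ring
  rw [e]
  refine (norm_sub_le _ _).trans ?_
  linarith

end pos

/-! ### the smallest span -/

section seen

variable {V V1 V3 D : Type*} {T : Tri V D} {T3 : Tri V3 D} {π : V → V1} {O : V1} {w : V → Bool}
  {c : ℕ → D} {n s₁ s₂ : ℕ} {S : Fin 3 → Set V} {π3 : V → V3} {lab : Fin 3 → V3}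

/-- If `q` is on the strand of `d`, two times of the same dart without `q` before the first of them
are in increasing order. -/
theorem time_le [Finite D] {T3 : Tri V3 D} {σ : V3 → Bool} {d q e : D} {N N' k0 : ℕ}
    (hN : (T3.st σ)^[N] d = e) (hN' : (T3.st σ)^[N'] d = e) (hk : (T3.st σ)^[k0] q = d)
    (hk0 : k0 < per T3 σ q) (hdq : d ≠ q)
    (hno : ∀ k, 0 < k → k ≤ N' → (T3.st σ)^[k] d ≠ q) : N' ≤ N := by
  by_contra hc
  push Not at hc
  have h0 : 0 < k0 := by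
    rcases Nat.eq_zero_or_pos k0 with h | h
    · subst h; exact absurd hk.symm (fun hh => hdq (by rw [hh]; rfl))
    · exact h
  have hper : (T3.st σ)^[per T3 σ q] q = q := iterate_minimalPeriod
  have h1 : per T3 σ d = per T3 σ q := by
    rw [← hk]
    exact H871.per_iter _ _ _ _
  have h2 : per T3 σ e = per T3 σ q := by
    rw [← hN, ← h1]
    exact H871.per_iter _ _ _ _
  have h3 : (T3.st σ)^[N' - N] e = e := by
    conv_lhs => rw [← hN]
    rw [← iterate_add_apply, Nat.sub_add_cancel hc.le, hN']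
  have h4 : per T3 σ e ∣ N' - N := (show IsPeriodicPt (T3.st σ) (N' - N) e from h3).minimalPeriod_dvd
  have h5 := Nat.le_of_dvd (by omega) h4
  rw [h2] at h5
  refine hno (per T3 σ q - k0) (by omega) (by omega) ?_
  rw [← hk, ← iterate_add_apply, Nat.sub_add_cancel hk0.le, hper]

variable (hW : W3 T T3 π O w c n s₁ s₂ S π3 lab)
include hW

/-- **The smallest span** of the closed case sees free vertices and the third arc only. -/
theorem clo_seen [Fintype D] {σ : V3 → Bool} {q : D} (hq : T3.InFace (c (s₁ - 1)) q)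
    {α β γ : Fin 3} (ha : T.src q ∈ S α) (hb : T.apex q ∈ S β) (hc : T.tgt q ∈ S γ) {m : ℕ}
    {f : ℕ → D} {j₁ i₁ N : ℕ} (hp : Path3 T T3 π O c n s₁ s₂ σ q α β m f j₁ i₁)
    (hN : (T3.st σ)^[N] (f 1) = f (m - 1)) :
    ∃ N' ≤ N, (∀ i, 1 ≤ i → i < m → ∃ k ≤ N', (T3.st σ)^[k] (f 1) = f i) ∧
      (T3.st σ)^[N'] (f 1) = f (m - 1) ∧
      (∀ k, 0 < k → k ≤ N' → π (T.src ((T3.st σ)^[k] (f 1))) ≠ O) ∧
      (∀ k ≤ N', π (T.tgt ((T3.st σ)^[k] (f 1))) ≠ O ∨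
        ∃ i < n, InArc s₁ s₂ n γ i ∧ T.tgt ((T3.st σ)^[k] (f 1)) = T.src (c i)) := by
  obtain ⟨N', a1, a2, a3, a4⟩ := hW.seen hq ha hb hc hp
  refine ⟨N', ?_, a1, a2, a3, a4⟩
  have h2 := hp.two
  obtain ⟨-, -, k0, hk0, hk, -⟩ := (hp.rel (f 1)).2 ⟨1, by omega, rfl⟩
  refine time_le (T3 := T3) (σ := σ) (q := q) hN a2 hk hk0 ?_ ?_
  · intro hh
    have := hp.inj3 1 (by omega) 0 (by omega) (by rw [hh, hp.zero])
    omega
  · intro k h3 h4 h5
    exact a3 k h3 h4 (by rw [h5]; exact hW.frozen ha)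

end seen

/-! ### on a marked frame -/

section frame

variable {M : ℕ} {w : W0} {x₀ : w.X} {col : w.X → Bool} {F : Frame M w x₀ col}
  {g₀ g₁ g₂ n s₁ s₂ : ℕ} {c : ℕ → w.D} {τ : ℕ → ℕ}

/-- **Everything about the closed case on a marked frame** which the windows need. -/
theorem clo_all [Fintype w.D] (hm : Mrk F g₀ g₁ g₂ n s₁ s₂ c τ) (hM : 0 < M) (h01 : g₀ ≤ g₁)
    (h12 : g₁ ≤ g₂) (h20 : g₂ ≤ g₀ + nc M) {V3 : Type*} {T3 : Tri V3 w.D} {S : Fin 3 → Set w.X}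
    {π3 : w.X → V3} {lab : Fin 3 → V3} {wc : w.X → Bool}
    (hW : W3 (TP w x₀) T3 (piX w) w.O wc c n s₁ s₂ S π3 lab) {σ : V3 → Bool} {q : w.D}
    (hq : T3.InFace (c (s₁ - 1)) q) {α β γ : Fin 3} (ha : (TP w x₀).src q ∈ S α)
    (hb : (TP w x₀).apex q ∈ S β) (hc : (TP w x₀).tgt q ∈ S γ) {Z Z' : Set w.X}
    {nr : w.X → w.X → Prop} {τ' : w.X → Bool} {m : ℕ} {f : ℕ → w.D} {j₁ i₁ N : ℕ}
    (hZ : mkZ w M (ag g₀ g₁ g₂ γ) (bg M g₀ g₁ g₂ γ) (12 * ms M) ⊆ Z)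
    (hZ' : mkZ w M (ag g₀ g₁ g₂ γ) (bg M g₀ g₁ g₂ γ) (12 * ms M) ⊆ Z')
    (h : H953.Clo (TP w x₀) T3 (piX w) w.O c n s₁ s₂ π3 lab σ q α β γ Z Z' nr τ' m f j₁ i₁ N) :
    ∃ N' ≤ N, (∀ i, 1 ≤ i → i < m → ∃ k ≤ N', (T3.st σ)^[k] (f 1) = f i) ∧
      (T3.st σ)^[N'] (f 1) = f (m - 1) ∧
      (∀ k, 0 < k → k ≤ N' → piX w ((TP w x₀).src ((T3.st σ)^[k] (f 1))) ≠ w.O) ∧
      (∀ k ≤ N', piX w ((TP w x₀).tgt ((T3.st σ)^[k] (f 1))) ≠ w.O ∨
        ∃ i < n, InArc s₁ s₂ n γ i ∧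
          (TP w x₀).tgt ((T3.st σ)^[k] (f 1)) = (TP w x₀).src (c i)) ∧
      (∀ i < n, InArc s₁ s₂ n γ i →
        (∃ k ≤ N', (TP w x₀).tgt ((T3.st σ)^[k] (f 1)) = (TP w x₀).src (c i)) →
        F.t (ag g₀ g₁ g₂ γ + 8) ≤ F.t g₀ + τ i ∧
          F.t g₀ + τ i < F.t (bg M g₀ g₁ g₂ γ - 7)) ∧
      ∃ i < n, InArc s₁ s₂ n γ i ∧ (F.t (ag g₀ g₁ g₂ γ + 8) ≤ F.t g₀ + τ i ∧
          F.t g₀ + τ i < F.t (bg M g₀ g₁ g₂ γ - 7)) ∧
        ((TP w x₀).tgt (f 1) = (TP w x₀).src (c i) ∨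
        ∃ u, (∃ e, (TP w x₀).src e = (TP w x₀).src (c i) ∧ (TP w x₀).tgt e = u) ∧
          Joined (TP w x₀) (fun v => σ (π3 v)) (σ (lab γ)) {v | piX w v ≠ w.O ∧ v ∉ Z} u
            ((TP w x₀).tgt (f 1))) := by
  obtain ⟨N', b1, b2, b3, b4, b5⟩ := clo_seen hW hq ha hb hc h.path h.last
  obtain ⟨c1, i, hi, c2, c3⟩ := clo_mid hm hM h01 h12 h20 hZ hZ' h
  refine ⟨N', b1, b2, b3, b4, b5, ?_, i, in_lt hm hi, hi, c2, c3⟩
  rintro i' - hi' ⟨k, hk, hk2⟩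
  exact c1 i' hi' ⟨k, hk.trans b1, Or.inr (Or.inl hk2.symm)⟩

end frame

end Vale.Agent.P148.R2.H112
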