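import Vale.Agent.P148.R2.H409.CalW1
import Vale.Agent.P148.R2.H112.CalG3

/-!
# P148, row CAL: the link in the world with frozen sets

`hlink_of` : hypothesis `hlink` of `H409.win3_le` from the link of the closed case.
-/

open Set Metric Function
open scoped Classical

namespace Vale.Agent.P148.R2.H112

open Vale.Agent.P148.R2.H258
open Vale.Agent.P148.R2.H532 (Coll col_not_mem)
open Vale.Agent.P148.R2.H838 (Joined)

variable {V V1 V3 D ι : Type*} {T : Tri V D} {π : V → V1} {O : V1} {F : ι → Set V} {r : ι → V}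
  {σ2 : V → Bool} {σ3 : V3 → Bool} {π3 : V → V3} {g : Bool}

/-- A path of free vertices in the world with frozen sets. -/
theorem joined_free (hfib : ∀ i, ∀ v ∈ F i, π v = O) (hfr : ∀ v, π v ≠ O → σ2 v = σ3 (π3 v))
    {A : Set V} (hA : ∀ v ∈ A, π v ≠ O) {u x : V}
    (h : Joined T (fun v => σ3 (π3 v)) g A u x) :
    Joined T (fun v => σ2 (H532.col F r v)) g univ u x := by
  have key : ∀ v ∈ A, σ3 (π3 v) = g → σ2 (H532.col F r v) = g := by
    intro v hv hg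
    rw [col_not_mem (fun i hi => hA v hv (hfib i v hi)), hfr v (hA v hv), hg]
  obtain ⟨h1, h2, l, h3, h4⟩ := h
  exact ⟨mem_univ _, key u h1 h2, l, h3, fun e he => ⟨⟨key _ (h4 e he).1.2 (h4 e he).1.1,
    mem_univ _⟩, ⟨key _ (h4 e he).2.2 (h4 e he).2.1, mem_univ _⟩⟩⟩

/-- **The link**: from a vertex `p` of the frozen white set to `x`. -/
theorem hlink_of (hF : Coll T F r) (hfib : ∀ i, ∀ v ∈ F i, π v = O)
    (hfr : ∀ v, π v ≠ O → σ2 v = σ3 (π3 v)) {w : ι} (hw : σ2 (r w) = g) {A : Set V}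
    (hA : ∀ v ∈ A, π v ≠ O) {p x : V} (hp : p ∈ F w)
    (h : x = p ∨ ∃ u, (∃ e, T.src e = p ∧ T.tgt e = u) ∧
      Joined T (fun v => σ3 (π3 v)) g A u x) :
    Joined T (fun v => σ2 (H532.col F r v)) g univ p x := by
  have hpc : σ2 (H532.col F r p) = g := by rw [hF.col_mem hp, hw]
  rcases h with rfl | ⟨u, ⟨e, he1, he2⟩, h⟩
  · exact H838.Joined.refl (mem_univ _) hpc
  · exact (joined_free hfib hfr hA h).cons he1 he2 (mem_univ _) hpc

/-- The same, in the form of the hypothesis of `H409.win3_le`. -/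
theorem hlink_win {σ : V → Bool} {c : ℕ → D} {n : ℕ} {τ : ℕ → ℕ} {b1 b2 w : ι}
    {m1 m2 t2 t1 q : ℕ} [Finite D]
    (h : H126.Win T π O σ c n τ F r b1 b2 w m1 m2 t2 t1 q)
    (hfr : ∀ v, π v ≠ O → σ2 v = σ3 (π3 v)) (hw : σ2 (r w) = g) {A : Set V}
    (hA : ∀ v ∈ A, π v ≠ O) {p x : V} (hp : p ∈ F w)
    (hl : x = p ∨ ∃ u, (∃ e, T.src e = p ∧ T.tgt e = u) ∧
      Joined T (fun v => σ3 (π3 v)) g A u x) :
    ∃ p ∈ F w, Joined T (fun v => σ2 (H532.col F r v)) g univ p x :=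
  ⟨p, hp, hlink_of h.coll h.fibF hfr hw hA hp hl⟩

end Vale.Agent.P148.R2.H112
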