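import Vale.Agent.P148.R2.H959.CalPos
import Vale.Agent.P148.R2.H953.CalEv

/-!
# P148, row CAL: vertices of an arc off the marks are seen at middle times

`mk_ball F a b R` : the vertices within `R ms M` of the gate `a` or of the gate `b`.
-/

open Set Metric Function
open scoped Classical

namespace Vale.Agent.P148.R2.H112

open Vale.Agent.P148.R2.H258
open Vale.Agent.P148.R2.N (ms nc gateC cellC csq ms_pos)
open Vale.Agent.P148.R2.H566 (W0)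
open Vale.Agent.P148.R2.H609 (TP piX)
open Vale.Agent.P148.R2.H172 (Frame)
open Vale.Agent.P148.R2.H251 (InArc)
open Vale.Agent.P148.R2.H959 (reg Mrk ag bg)
open Vale.Agent.P148.R2.H897 (Sn)
open Vale.Agent.P148.R2.H838 (Joined)

variable {M : ℕ}

theorem dist_cell_gate (M k : ℕ) : dist (cellC M k) (gateC M k) = ms M / 2 := by
  have h0 : 0 ≤ ms M := by unfold ms; positivity
  rw [Complex.dist_eq]
  unfold cellC gateC
  rw [← mul_sub, norm_mul, norm_pow, Complex.norm_I, one_pow, one_mul]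
  have e : (⟨1 + ms M / 2, -1 + ms M / 2 + (k % (2 * M + 1) : ℕ) * ms M⟩ : ℂ) -
      ⟨1 + ms M / 2, -1 + (k % (2 * M + 1) : ℕ) * ms M⟩ = ((ms M / 2 : ℝ) : ℂ) * Complex.I := by
    apply Complex.ext <;> simp
  rw [e, norm_mul, Complex.norm_I, mul_one, Complex.norm_real, Real.norm_eq_abs,
    abs_of_nonneg (by positivity)]

/-- **Regions near a gate.** -/
theorem near_gate (hM : 0 < M) {g k : ℕ} (h1 : g ≤ k + 7) (h2 : k ≤ g + 7) {x : ℂ}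
    (hx : x ∈ reg M k) : x ∈ ball (gateC M g) (12 * ms M) := by
  have h0 := ms_pos hM
  have h3 := H959.reg_subset_window hM (n := 7) h1 h2 hx
  obtain ⟨h4, h5⟩ := N.mem_csq.1 h3
  rw [mem_ball]
  have h6 := dist_cell_gate M g
  have h7 := dist_triangle x (cellC M g) (gateC M g)
  have h8 : dist x (cellC M g) ≤ 11 * ms M := by
    rw [Complex.dist_eq]
    push_cast at h4 h5
    have e : 5 * ms M / 8 + 7 * ms M = 61 / 8 * ms M := by ring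
    rw [e] at h4 h5
    rw [← Complex.sub_re] at h4
    rw [← Complex.sub_im] at h5
    have h9 : ‖x - cellC M g‖ ^ 2 ≤ (11 * ms M) ^ 2 := by
      rw [← Complex.normSq_eq_norm_sq, Complex.normSq_apply]
      have h10 := sq_abs (x - cellC M g).re
      have h11 := sq_abs (x - cellC M g).im
      have h12 := abs_nonneg (x - cellC M g).re
      have h13 := abs_nonneg (x - cellC M g).im
      nlinarith [mul_nonneg h12 h0.le, mul_nonneg h13 h0.le]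
    exact (abs_le_of_sq_le_sq' h9 (by positivity)).2
  linarith

variable {w : W0} {x₀ : w.X} {col : w.X → Bool} {F : Frame M w x₀ col}
  {g₀ g₁ g₂ n s₁ s₂ : ℕ} {c : ℕ → w.D} {τ : ℕ → ℕ}

theorem in_lt (hm : Mrk F g₀ g₁ g₂ n s₁ s₂ c τ) {j : Fin 3} {i : ℕ} (hi : InArc s₁ s₂ n j i) :
    i < n := by
  have := hm.lt12
  have := hm.lt2
  rcases hi with ⟨-, h⟩ | ⟨-, -, h⟩ | ⟨-, -, h⟩ <;> omega

/-- **A member of the arc `j` off the two marks is seen at a middle time.** -/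
theorem mid_time (hm : Mrk F g₀ g₁ g₂ n s₁ s₂ c τ) (hM : 0 < M) (h01 : g₀ ≤ g₁) (h12 : g₁ ≤ g₂)
    (h20 : g₂ ≤ g₀ + nc M) {j : Fin 3} {i : ℕ} (hi : InArc s₁ s₂ n j i)
    (ha : ((TP w x₀).src (c i)).1 ∉ ball (gateC M (ag g₀ g₁ g₂ j)) (12 * ms M))
    (hb : ((TP w x₀).src (c i)).1 ∉ ball (gateC M (bg M g₀ g₁ g₂ j)) (12 * ms M)) :
    ∃ k, ag g₀ g₁ g₂ j + 8 ≤ k ∧ k + 8 ≤ bg M g₀ g₁ g₂ j ∧ F.t k ≤ F.t g₀ + τ i ∧
      F.t g₀ + τ i < F.t (k + 1) ∧ ((TP w x₀).src (c i)).1 ∈ reg M k ∧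
      ((TP w x₀).tgt (c i)).1 ∈ reg M k ∧ ((TP w x₀).apex (c i)).1 ∈ reg M k := by
  obtain ⟨k, h1, h2, h3, h4, h5, h6, h7⟩ := hm.mem_reg h01 h12 h20 hi
  refine ⟨k, ?_, ?_, h3, h4, h5, h6, h7⟩
  · by_contra hc
    exact ha (near_gate hM (by omega) (by omega) h5)
  · by_contra hc
    exact hb (near_gate hM (by omega) (by omega) h5)

/-- The same, with times. -/
theorem mid_time' (hm : Mrk F g₀ g₁ g₂ n s₁ s₂ c τ) (hM : 0 < M) (h01 : g₀ ≤ g₁) (h12 : g₁ ≤ g₂)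
    (h20 : g₂ ≤ g₀ + nc M) {j : Fin 3} {i : ℕ} (hi : InArc s₁ s₂ n j i)
    (ha : ((TP w x₀).src (c i)).1 ∉ ball (gateC M (ag g₀ g₁ g₂ j)) (12 * ms M))
    (hb : ((TP w x₀).src (c i)).1 ∉ ball (gateC M (bg M g₀ g₁ g₂ j)) (12 * ms M)) :
    F.t (ag g₀ g₁ g₂ j + 8) ≤ F.t g₀ + τ i ∧
      F.t g₀ + τ i < F.t (bg M g₀ g₁ g₂ j - 7) := by
  obtain ⟨k, h1, h2, h3, h4, -⟩ := mid_time hm hM h01 h12 h20 hi ha hb
  have h5 := F.lt.mono h1
  have h6 := F.lt.mono (show k + 1 ≤ bg M g₀ g₁ g₂ j - 7 by omega)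
  omega

/-- The two balls of a mark pair. -/
def mkZ (w : W0) (M a b : ℕ) (R : ℝ) : Set w.X :=
  {v | v.1 ∈ ball (gateC M a) R ∨ v.1 ∈ ball (gateC M b) R}

theorem mkZ_mono {a b : ℕ} {R R' : ℝ} (h : R ≤ R') : mkZ w M a b R ⊆ mkZ w M a b R' := by
  rintro v (hv | hv)
  · exact Or.inl (ball_subset_ball h hv)
  · exact Or.inr (ball_subset_ball h hv)

/-- **The middle clause of the closed case.** Every contact of the span with the third arc and the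
link vertex are seen at middle times. -/
theorem clo_mid [Fintype w.D] (hm : Mrk F g₀ g₁ g₂ n s₁ s₂ c τ) (hM : 0 < M) (h01 : g₀ ≤ g₁)
    (h12 : g₁ ≤ g₂) (h20 : g₂ ≤ g₀ + nc M) {V3 : Type*} {T3 : Tri V3 w.D} {π3 : w.X → V3}
    {lab : Fin 3 → V3} {σ : V3 → Bool} {q : w.D} {α β γ : Fin 3} {Z Z' : Set w.X}
    {nr : w.X → w.X → Prop} {τ' : w.X → Bool} {m : ℕ} {f : ℕ → w.D} {j₁ i₁ N : ℕ}
    (hZ : mkZ w M (ag g₀ g₁ g₂ γ) (bg M g₀ g₁ g₂ γ) (12 * ms M) ⊆ Z)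
    (hZ' : mkZ w M (ag g₀ g₁ g₂ γ) (bg M g₀ g₁ g₂ γ) (12 * ms M) ⊆ Z')
    (h : H953.Clo (TP w x₀) T3 (piX w) w.O c n s₁ s₂ π3 lab σ q α β γ Z Z' nr τ' m f j₁ i₁ N) :
    (∀ i, InArc s₁ s₂ n γ i → (TP w x₀).src (c i) ∈ Sn (TP w x₀) T3 σ (f 1) N →
      F.t (ag g₀ g₁ g₂ γ + 8) ≤ F.t g₀ + τ i ∧ F.t g₀ + τ i < F.t (bg M g₀ g₁ g₂ γ - 7)) ∧
    ∃ i, InArc s₁ s₂ n γ i ∧
      (F.t (ag g₀ g₁ g₂ γ + 8) ≤ F.t g₀ + τ i ∧ F.t g₀ + τ i < F.t (bg M g₀ g₁ g₂ γ - 7)) ∧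
      ((TP w x₀).tgt (f 1) = (TP w x₀).src (c i) ∨
        ∃ u, (∃ e, (TP w x₀).src e = (TP w x₀).src (c i) ∧ (TP w x₀).tgt e = u) ∧
          Joined (TP w x₀) (fun v => σ (π3 v)) (σ (lab γ)) {v | piX w v ≠ w.O ∧ v ∉ Z} u
            ((TP w x₀).tgt (f 1))) := by
  refine ⟨fun i hi hs => ?_, ?_⟩
  · have h1 := h.off _ hs
    exact mid_time' hm hM h01 h12 h20 hi (fun hh => h1 (hZ' (Or.inl hh)))
      (fun hh => h1 (hZ' (Or.inr hh)))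
  · obtain ⟨i, -, hi, h1, h2⟩ := h.link
    exact ⟨i, hi, mid_time' hm hM h01 h12 h20 hi (fun hh => h1 (hZ (Or.inl hh)))
      (fun hh => h1 (hZ (Or.inr hh))), h2⟩

end Vale.Agent.P148.R2.H112
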