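import Vale.Agent.P148.R2.H112.CalT3
import Vale.Agent.P148.R2.H251.CalWn

/-!
# P148, row CAL: the mean of the chain of the main cycle in the closed case

`ex_chain_le` : a pointwise bound of the chain by a constant, the windows of the near cells and the
paths of the closed case gives the bound of its mean.
-/

set_option linter.unusedSectionVars false

open Set Function Relation
open scoped Classical
open Vale.Agent.P148.R2.H258 Vale.Agent.P148.R2.H258.Tri Vale.Agent.P148.R2.H659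
  Vale.Agent.P148.R2.H871 Vale.Agent.P148.R2.H592
  Vale.Agent.P148.R2.H184 Vale.Agent.P148.R2.H203 Vale.Agent.P148.R2.H910
  Vale.Agent.P148.R2.H251 Vale.Agent.P148.R2.H838 Vale.Agent.P148.R2.H897
  Vale.Agent.P148.R2.H953
open Vale.Agent.P148.R2.H400 (TP TB piB secB piB_eq_iff contrB src_TP tgt_TP nbr_dt)
open Vale.Agent.P148.R2.H566 (W0 Ev)
open Vale.Agent.P148.R2.H291 (SiteOK site bR CT)
open Vale.Agent.P148.R2.H488 (cw cw_ne hc cw_rot)
open Vale.Agent.P148.R2.N (ms nc ms_pos ms_le_one)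
open Vale.Agent.P148.R2.H532 (WX)
open Vale.Agent.P148.R2.H126 (rf Rs)
open Vale.Agent.P148.R2.H409 (NX)
open Vale.Agent.P148.R2.H959 (ag bg)
open P148.H729 (thk thk_rot ev_thk CT_two)

namespace Vale.Agent.P148.R2.H112

/-- A pointwise bound by a constant and two families gives the bound of the mean. -/
theorem ex_two_le {V : Type*} [Fintype V] {Gd : (V → Bool) → Prop} {DV : (V → Bool) → ℝ}
    {A E : ℝ} (hA : 0 ≤ A) {S : Finset ℕ} {W P : ℕ → (V → Bool) → ℝ}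
    (hW0 : ∀ k s, 0 ≤ W k s)
    (hpt : ∀ s, Gd s → DV s ≤ A + 12 * ∑ k ∈ S, (2 * W k s + 2 * P k s))
    (hP : ∀ k ∈ S, (ex fun s => if Gd s then P k s else 0) ≤ E) :
    (ex fun s => if Gd s then DV s else 0) ≤
      A + 24 * ∑ k ∈ S, ex (W k) + 24 * (S.card * E) := by
  have h1 : ∀ s, (if Gd s then DV s else 0) ≤
      A + 24 * ∑ k ∈ S, W k s + 24 * ∑ k ∈ S, (if Gd s then P k s else 0) := by
    intro s
    have h0 : 0 ≤ ∑ k ∈ S, W k s := Finset.sum_nonneg fun k _ => hW0 k s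
    by_cases hs : Gd s
    · rw [if_pos hs]
      refine (hpt s hs).trans (le_of_eq ?_)
      simp only [if_pos hs]
      rw [Finset.sum_add_distrib, ← Finset.mul_sum, ← Finset.mul_sum]
      ring
    · rw [if_neg hs]
      simp only [if_neg hs, Finset.sum_const_zero, mul_zero, add_zero]
      linarith
  refine (ex_mono h1).trans ?_
  rw [ex_add, ex_add, ex_smul, ex_smul, ex_const, ex_sum, ex_sum]
  have h2 : ∑ k ∈ S, (ex fun s => if Gd s then P k s else 0) ≤ S.card * E := by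
    refine (Finset.sum_le_sum hP).trans ?_
    rw [Finset.sum_const, nsmul_eq_mul]
  linarith

section scene

variable {w : W0} {x₀ : w.X} {B : Set ℂ} {O3 : Fin 3 → Set ℂ} {h3 : Three3 w.X B O3}
  {wc : w.X → Bool} {c : ℕ → w.D} {n s₁ s₂ : ℕ}
  (hW : W3 (TP w.hull x₀) (TC w.hull h3) (piB w.X B) (Sum.inl ()) wc c n s₁ s₂
      (fun j => {v : w.X | v.1 ∈ O3 j}) (pi3 w.X O3) Sum.inl)
include hW

/-- **The mean of the chain of the main cycle in the closed case.** -/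
theorem ex_chain_le [Fintype w.X] [Fintype (CV w.X O3)] {T : Set P148.Pt} {M : ℕ} {τ : ℂ}
    {Θ : Dt → ℂ} {E : ℝ} (hE0 : 0 ≤ E)
    (hE : ThkE T M Θ E) (hX : w.X = site T 9) (hb : w.b = bR 9) (hτ : τ ^ 2 + τ + 1 = 0)
    (hΘ : ∀ d, Θ (rt d) = τ ^ 2 * Θ d) {g₀ g₁ g₂ : ℕ} (γ : Fin 3)
    (hγ : ag g₀ g₁ g₂ γ + 2 ≤ bg M g₀ g₁ g₂ γ) {col : w.X → Bool}
    {Gd : (w.X → Bool) → Prop} {DV : (w.X → Bool) → ℝ} {A : ℝ} (hA : 0 ≤ A)
    (hpt : ∀ s, Gd s → ∃ (m : ℕ) (f : ℕ → w.D) (j i : ℕ),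
      Path3 (TP w.hull x₀) (TC w.hull h3) (piB w.X B) (Sum.inl ()) c n s₁ s₂
        (patt w.X O3 γ s) (qd (TC w.hull h3) (c (s₁ - 1)) γ) (γ + 1) (γ + 2) m f j i ∧
      DV s ≤ A + 12 * ∑ k ∈ Finset.Icc (bg M g₀ g₁ g₂ γ - 1) (ag g₀ g₁ g₂ γ + nc M),
        (2 * WX (TP w.hull x₀) (Nat.card (Fc w.X w.b × ZMod 3)) (NX w.X M 2 k)
          (rf w.hull x₀ M col (ag g₀ g₁ g₂ γ + 6), rf w.hull x₀ M col (bg M g₀ g₁ g₂ γ - 6)) col
          (wt w.hull (idmap w.X x₀) (fib_id w.X x₀) (cw (hc M k) Θ))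
          (glue (Rs (TP w.hull x₀) (Nat.card (Fc w.X w.b × ZMod 3)) (NX w.X M 2 k)
            (NX w.X M 3 k) (rf w.hull x₀ M col (ag g₀ g₁ g₂ γ + 6)) col) col s) +
          2 * ‖∑ l ∈ Finset.Ico 1 m, thP w.hull x₀ (cw (hc M k) Θ) (f l)‖ ^ 2)) :
    (ex fun s => if Gd s then DV s else 0) ≤
      A + 24 * wnr w.hull x₀ M Θ g₀ g₁ g₂ col + 24 * (nc M * E) := by
  classical
  haveI : Nonempty w.D := ⟨c 0⟩
  choose! m f j i hp using hpt
  have key := ex_two_le (Gd := Gd) (DV := DV) (A := A) (E := E) hA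
    (S := Finset.Icc (bg M g₀ g₁ g₂ γ - 1) (ag g₀ g₁ g₂ γ + nc M))
    (W := fun k s => WX (TP w.hull x₀) (Nat.card (Fc w.X w.b × ZMod 3)) (NX w.X M 2 k)
          (rf w.hull x₀ M col (ag g₀ g₁ g₂ γ + 6), rf w.hull x₀ M col (bg M g₀ g₁ g₂ γ - 6)) col
          (wt w.hull (idmap w.X x₀) (fib_id w.X x₀) (cw (hc M k) Θ))
          (glue (Rs (TP w.hull x₀) (Nat.card (Fc w.X w.b × ZMod 3)) (NX w.X M 2 k)
            (NX w.X M 3 k) (rf w.hull x₀ M col (ag g₀ g₁ g₂ γ + 6)) col) col s))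
    (P := fun k s => ‖∑ l ∈ Finset.Ico 1 (m s), thP w.hull x₀ (cw (hc M k) Θ) (f s l)‖ ^ 2)
    (fun k s => H838.cotot_nonneg _ _ _)
    (fun s hs => (hp s hs).2)
    (fun k _ => ex_cell_span_le hW hE hX hb hτ hΘ γ k (J := j) (I := i) fun s hs => (hp s hs).1)
  refine key.trans ?_
  have h1 : ∑ k ∈ Finset.Icc (bg M g₀ g₁ g₂ γ - 1) (ag g₀ g₁ g₂ γ + nc M),
      (ex fun s => WX (TP w.hull x₀) (Nat.card (Fc w.X w.b × ZMod 3)) (NX w.X M 2 k)
          (rf w.hull x₀ M col (ag g₀ g₁ g₂ γ + 6), rf w.hull x₀ M col (bg M g₀ g₁ g₂ γ - 6)) col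
          (wt w.hull (idmap w.X x₀) (fib_id w.X x₀) (cw (hc M k) Θ))
          (glue (Rs (TP w.hull x₀) (Nat.card (Fc w.X w.b × ZMod 3)) (NX w.X M 2 k)
            (NX w.X M 3 k) (rf w.hull x₀ M col (ag g₀ g₁ g₂ γ + 6)) col) col s)) ≤
      wnr w.hull x₀ M Θ g₀ g₁ g₂ col :=
    sum_le_wnr w.hull x₀ M Θ g₀ g₁ g₂ col γ subset_rfl
  have h2 : ((Finset.Icc (bg M g₀ g₁ g₂ γ - 1) (ag g₀ g₁ g₂ γ + nc M)).card : ℝ) * E ≤
      nc M * E := by
    refine mul_le_mul_of_nonneg_right ?_ hE0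
    rw [Nat.card_Icc]
    exact_mod_cast (by omega)
  linarith

end scene

end Vale.Agent.P148.R2.H112
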