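import Vale.Agent.P148.R2.H953.CalEv
import Vale.Agent.P148.R2.H729.Wsum2

/-!
# P148, row CAL: the class of the frozen face with the weight of one cell

The classes `f 1, …, f (m - 1)` of the closed case are the class of the frozen face in the world of
the three classes: `sum_span`. Its second moment in the weight `Θ` is at most the energy of `Θ` on
the darts of the plane world: `ex_span_le`. With the weight of the cell `k` on the scene: at most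
`CT κ 2 * ms M ^ 2`, `ev_span`.
-/

set_option linter.unusedSectionVars false

open Set Function Relation
open scoped Classical
open Vale.Agent.P148.R2.H258 Vale.Agent.P148.R2.H258.Tri Vale.Agent.P148.R2.H659
  Vale.Agent.P148.R2.H871 Vale.Agent.P148.R2.H592
  Vale.Agent.P148.R2.H184 Vale.Agent.P148.R2.H203 Vale.Agent.P148.R2.H910
  Vale.Agent.P148.R2.H251 Vale.Agent.P148.R2.H838 Vale.Agent.P148.R2.H897
  Vale.Agent.P148.R2.H953
open Vale.Agent.P148.R2.H400 (TP TB piB secB piB_eq_iff contrB src_TP tgt_TP nbr_dt)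

namespace Vale.Agent.P148.R2.H112

section world

variable {X : Set ℂ} {b : ZMod 3 → ℂ} {h : HullTri X b} {x₀ : X} {B : Set ℂ}
  {O3 : Fin 3 → Set ℂ} {h3 : Three3 X B O3} {w : X → Bool} {c : ℕ → Fc X b × ZMod 3} {n s₁ s₂ : ℕ}

/-- The energy of the weight of the three-class world is at most that of the plane world. -/
theorem norm_th3_le_thP (Θ : Dt → ℂ) (o d : Fc X b × ZMod 3) :
    ‖th3 h h3 o Θ d‖ ≤ ‖thP h x₀ Θ d‖ := by
  by_cases hg : (TC h h3).Good d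
  · by_cases hf : (TC h h3).InFace o d
    · rw [th3_face h h3 Θ hf, norm_zero]
      exact norm_nonneg _
    · rw [th3_eq h x₀ h3 Θ hg hf]
  · rw [th3_good h h3 Θ o d hg, norm_zero]
    exact norm_nonneg _

theorem sum_th3_le [Fintype (Fc X b × ZMod 3)] (Θ : Dt → ℂ) (o : Fc X b × ZMod 3) :
    ∑ d, ‖th3 h h3 o Θ d‖ ^ 2 ≤ ∑ d, ‖thP h x₀ Θ d‖ ^ 2 :=
  Finset.sum_le_sum fun d _ =>
    pow_le_pow_left₀ (norm_nonneg _) (norm_th3_le_thP (x₀ := x₀) Θ o d) 2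

variable (hW : W3 (TP h x₀) (TC h h3) (piB X B) (Sum.inl ()) w c n s₁ s₂
      (fun j => {v : X | v.1 ∈ O3 j}) (pi3 X O3) Sum.inl)
include hW

/-- The darts of the path of the closed case sum up to the class of the frozen face. -/
theorem sum_span [Fintype (Fc X b × ZMod 3)] (Θ : Dt → ℂ) {γ : Fin 3} {s : X → Bool} {m : ℕ}
    {f : ℕ → Fc X b × ZMod 3} {j₁ i₁ : ℕ}
    (hp : Path3 (TP h x₀) (TC h h3) (piB X B) (Sum.inl ()) c n s₁ s₂ (patt X O3 γ s)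
      (qd (TC h h3) (c (s₁ - 1)) γ) (γ + 1) (γ + 2) m f j₁ i₁) :
    ∑ i ∈ Finset.Ico 1 m, thP h x₀ Θ (f i) =
      (TC h h3).cls (patt X O3 γ s) (qd (TC h h3) (c (s₁ - 1)) γ) (th3 h h3 (c (s₁ - 1)) Θ) :=
  (cls_th3 hW Θ (qd_facts hW γ).1 hp).symm

variable [Fintype X] [Fintype (CV X O3)] [Fintype (Fc X b × ZMod 3)]

/-- The second moment of the class of the frozen face, in the energy of the plane world. -/
theorem ex_cls_qd_le {τ : ℂ} (hτ : τ ^ 2 + τ + 1 = 0) {Θ : Dt → ℂ}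
    (hΘ : ∀ d, Θ (rt d) = τ ^ 2 * Θ d) (γ : Fin 3) :
    (ex fun s : X → Bool => ‖(TC h h3).cls (patt X O3 γ s) (qd (TC h h3) (c (s₁ - 1)) γ)
      (th3 h h3 (c (s₁ - 1)) Θ)‖ ^ 2) ≤ ∑ d, ‖thP h x₀ Θ d‖ ^ 2 :=
  (ex_cls_sq_le hW hτ hΘ (qd_facts hW γ).1 (qd_facts hW γ).2.2.2).trans (sum_th3_le Θ _)

/-- **The second moment of the path of the closed case.** -/
theorem ex_span_le {τ : ℂ} (hτ : τ ^ 2 + τ + 1 = 0) {Θ : Dt → ℂ}
    (hΘ : ∀ d, Θ (rt d) = τ ^ 2 * Θ d) (γ : Fin 3) {Gd : (X → Bool) → Prop}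
    {m : (X → Bool) → ℕ} {f : (X → Bool) → ℕ → Fc X b × ZMod 3} {J I : (X → Bool) → ℕ}
    (hp : ∀ s, Gd s → Path3 (TP h x₀) (TC h h3) (piB X B) (Sum.inl ()) c n s₁ s₂ (patt X O3 γ s)
      (qd (TC h h3) (c (s₁ - 1)) γ) (γ + 1) (γ + 2) (m s) (f s) (J s) (I s)) :
    (ex fun s : X → Bool => if Gd s then ‖∑ i ∈ Finset.Ico 1 (m s), thP h x₀ Θ (f s i)‖ ^ 2
      else 0) ≤ ∑ d, ‖thP h x₀ Θ d‖ ^ 2 := by
  refine (ex_mono fun s => ?_).trans (ex_cls_qd_le hW hτ hΘ γ)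
  split_ifs with hs
  · rw [sum_span hW Θ (hp s hs)]
  · positivity

end world

/-! ### the scene -/

section scene

open Vale.Agent.P148.R2.H566 (W0 Ev)
open Vale.Agent.P148.R2.H291 (SiteOK site bR CT)
open Vale.Agent.P148.R2.H488 (cw cw_ne hc cw_rot)
open Vale.Agent.P148.R2.N (ms nc ms_pos ms_le_one)
open P148.H729 (thk thk_rot ev_thk CT_two)

universe u

/-- The weight of the cell `k` is rotating. -/
theorem cw_rot' {τ : ℂ} {Θ : Dt → ℂ} (hΘ : ∀ d, Θ (rt d) = τ ^ 2 * Θ d) (M k : ℕ) (d : Dt) :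
    cw (hc M k) Θ (rt d) = τ ^ 2 * cw (hc M k) Θ d := cw_rot hΘ d

theorem thP_eq_thk {w : W0} {x₀ : w.X} (M : ℕ) (Θ : Dt → ℂ) (k : ℕ) :
    thP w.hull x₀ (cw (hc M k) Θ) = thk w x₀ M Θ k := rfl

/-- The energy of the weight of every cell is at most `E` on the darts of `w`. -/
def ThkE (T : Set P148.Pt) (M : ℕ) (Θ : Dt → ℂ) (E : ℝ) : Prop :=
  ∀ w : W0, w.X = site T 9 → w.b = bR 9 → ∀ (x₀ : w.X) (k : ℕ),
    ∑ q : w.D, ‖thk w x₀ M Θ k q‖ ^ 2 ≤ E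

theorem ev_thkE {τ : ℂ} {κ : ℝ} {Θ : Dt → ℂ} (hΘ : Wt τ κ Θ) {M : ℕ} (hM : 0 < M) :
    Ev.{u} fun T => ThkE T M Θ (CT κ 2 * ms M ^ 2) := by
  refine (ev_thk hΘ hM).mono ?_
  rintro T ⟨-, h2⟩ w hX hb x₀ k
  rw [← CT_two]
  exact h2 w hX hb x₀ k

variable {w : W0} {x₀ : w.X} {B : Set ℂ} {O3 : Fin 3 → Set ℂ} {h3 : Three3 w.X B O3}
  {wc : w.X → Bool} {c : ℕ → w.D} {n s₁ s₂ : ℕ}
  (hW : W3 (TP w.hull x₀) (TC w.hull h3) (piB w.X B) (Sum.inl ()) wc c n s₁ s₂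
      (fun j => {v : w.X | v.1 ∈ O3 j}) (pi3 w.X O3) Sum.inl)
include hW

/-- **The second moment of the class of the frozen face in the weight of the cell `k`.** -/
theorem ex_cell_cls_le [Fintype w.X] [Fintype (CV w.X O3)] {T : Set P148.Pt} {M : ℕ} {τ : ℂ} {Θ : Dt → ℂ} {E : ℝ}
    (hE : ThkE T M Θ E) (hX : w.X = site T 9) (hb : w.b = bR 9) (hτ : τ ^ 2 + τ + 1 = 0)
    (hΘ : ∀ d, Θ (rt d) = τ ^ 2 * Θ d) (γ : Fin 3) (k : ℕ) :
    (ex fun s : w.X → Bool => ‖(TC w.hull h3).cls (patt w.X O3 γ s)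
      (qd (TC w.hull h3) (c (s₁ - 1)) γ)
      (th3 w.hull h3 (c (s₁ - 1)) (cw (hc M k) Θ))‖ ^ 2) ≤ E :=
  (ex_cls_qd_le hW hτ (cw_rot' hΘ M k) γ).trans (hE w hX hb x₀ k)

/-- **The second moment of the path of the closed case in the weight of the cell `k`.** -/
theorem ex_cell_span_le [Fintype w.X] [Fintype (CV w.X O3)] {T : Set P148.Pt} {M : ℕ} {τ : ℂ} {Θ : Dt → ℂ} {E : ℝ}
    (hE : ThkE T M Θ E) (hX : w.X = site T 9) (hb : w.b = bR 9) (hτ : τ ^ 2 + τ + 1 = 0)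
    (hΘ : ∀ d, Θ (rt d) = τ ^ 2 * Θ d) (γ : Fin 3) (k : ℕ) {Gd : (w.X → Bool) → Prop}
    {m : (w.X → Bool) → ℕ} {f : (w.X → Bool) → ℕ → w.D} {J I : (w.X → Bool) → ℕ}
    (hp : ∀ s, Gd s → Path3 (TP w.hull x₀) (TC w.hull h3) (piB w.X B) (Sum.inl ()) c n s₁ s₂
      (patt w.X O3 γ s) (qd (TC w.hull h3) (c (s₁ - 1)) γ) (γ + 1) (γ + 2) (m s) (f s)
      (J s) (I s)) :
    (ex fun s : w.X → Bool => if Gd s then
      ‖∑ i ∈ Finset.Ico 1 (m s), thP w.hull x₀ (cw (hc M k) Θ) (f s i)‖ ^ 2 else 0) ≤ E :=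
  (ex_span_le hW hτ (cw_rot' hΘ M k) γ hp).trans (hE w hX hb x₀ k)

end scene

end Vale.Agent.P148.R2.H112
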