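import Vale.Agent.P148.R2.H172.Sc2
import Vale.Agent.P148.R2.H112.Ori3
import Vale.Agent.P148.R2.H419.Col6
import Vale.Agent.P148.R2.H659.Hz

/-!
# P148: the frame of a world exists

`foot_of` : an admissible foot of helper419 is a foot in the sense of helper565.
`exists_frame` : for every admissible choice of the feet there is a frame (increasing orientation)
whose strand passes these feet.
-/

open Set Metric Relation Filter Function
open scoped Classical ENNReal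

namespace Vale.Agent.P148.R2.H112

open Vale.Agent.P148.R2.H258 Vale.Agent.P148.R2.H565 Vale.Agent.P148.R2.H419
open Vale.Agent.P148.R2.N (ms nc gateC gbox cell csq ms_pos)
open Vale.Agent.P148.R2.H592 (HullTri nbr nbr_symm ConnIn Fc idmap fib_id tail head vc comp)
open Vale.Agent.P148.R2.H959 (Jn reg)
open Vale.Agent.P148.R2.H995 (nsup)
open Vale.Agent.P148.R2.H566 (W0)
open Vale.Agent.P148.R2.H609 (TP piX)
open Vale.Agent.P148.R2.H172 (Frame blk)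
open Vale.Agent.P148.R2.H678 (core hub pin pout sd inHub outHub inRim outRim Ex mix mB mW)

variable {M : ℕ} {X : Set ℂ} {b : ZMod 3 → ℂ} {Bl₁ Wh₁ Bl₂ Wh₂ : Set ℂ} {s : ℂ → Bool}

section foot

/-- The black sites of the composite colouring. -/
def bk (X : Set ℂ) (s : ℂ → Bool) : Set ℂ := {z | z ∈ X ∧ s z = true}

variable (hC : Col M X b Bl₁ Wh₁ Bl₂ Wh₂ s)
include hC

theorem core_in (k : ℕ) : core (nbr X) (X ∩ ball (pin M k) (sd M)) (X \ bk X s) =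
    core (nbr X) (X ∩ ball (pin M k) (sd M)) Wh₁ := by
  refine H678.core_congr fun v hv => ?_
  have hvX : v ∈ X := H678.hub_sub_X hv
  have hE : v ∈ Ex M X Bl₁ Wh₁ := mem_iUnion.2 ⟨k, Or.inl hv⟩
  have h1 := hC.cW v hvX
  rw [show (v ∈ mW M X Bl₁ Wh₁ Wh₂) = (v ∈ Wh₁) from propext (H678.mem_mix_of_mem hE)] at h1
  rw [h1]
  constructor
  · rintro ⟨-, h2⟩
    exact Bool.eq_false_iff.2 fun h3 => h2 ⟨hvX, h3⟩
  · intro h2
    exact ⟨hvX, fun h3 => by rw [h3.2] at h2; exact absurd h2 (by decide)⟩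

theorem core_out (k : ℕ) : core (nbr X) (X ∩ ball (pout M k) (sd M)) (bk X s) =
    core (nbr X) (X ∩ ball (pout M k) (sd M)) Bl₁ := by
  refine H678.core_congr fun v hv => ?_
  have hvX : v ∈ X := H678.hub_sub_X hv
  have hE : v ∈ Ex M X Bl₁ Wh₁ := mem_iUnion.2 ⟨k, Or.inr hv⟩
  have h1 := hC.cB v hvX
  rw [show (v ∈ mB M X Bl₁ Wh₁ Bl₂) = (v ∈ Bl₁) from propext (H678.mem_mix_of_mem hE)] at h1
  rw [h1]
  exact ⟨fun h => h.2, fun h => ⟨hvX, h⟩⟩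

theorem inHub_bk (k : ℕ) : inHub M X (X \ bk X s) k = inHub M X Wh₁ k := by
  unfold inHub hub
  rw [core_in hC]

theorem outHub_bk (k : ℕ) : outHub M X (bk X s) k = outHub M X Bl₁ k := by
  unfold outHub hub
  rw [core_out hC]

theorem inRim_bk (k : ℕ) : inRim M X (X \ bk X s) k = inRim M X Wh₁ k := by
  unfold inRim H678.rim hub
  rw [core_in hC]

theorem outRim_bk (k : ℕ) : outRim M X (bk X s) k = outRim M X Bl₁ k := by
  unfold outRim H678.rim hub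
  rw [core_out hC]

/-- The inner core is closed under white moves. -/
theorem ico_step {k : ℕ} {u v : ℂ}
    (hu : u ∈ core (nbr X) (X ∩ ball (pin M k) (sd M)) Wh₁) (h : nbr X u v) (hv : s v = false) :
    v ∈ core (nbr X) (X ∩ ball (pin M k) (sd M)) Wh₁ := by
  have h1 : v ∈ inHub M X Wh₁ k := H678.hub_step hu h
  have hE : v ∈ Ex M X Bl₁ Wh₁ := mem_iUnion.2 ⟨k, Or.inl h1⟩
  have h2 := (hC.cW v h.2.1).2 hv
  exact H678.core_step hu h ((H678.mem_mix_of_mem hE).1 h2)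

/-- A white site of the inner hub is in the inner core. -/
theorem ico_of_white {k : ℕ} {v : ℂ} (hv : v ∈ inHub M X Wh₁ k) (hs : s v = false) :
    v ∈ core (nbr X) (X ∩ ball (pin M k) (sd M)) Wh₁ := by
  rcases hv with hv | ⟨u, hu, huv⟩
  · exact hv
  · exact ico_step hC hu huv hs

/-- **A foot of helper419 is a foot of helper565.** -/
theorem foot_of {x₀ : X} {k : ℕ} {g : Fc X b × ZMod 3}
    (hd : H419.Foot hC.hull x₀ M Bl₁ Wh₁ s k g) :
    H565.Foot M X (bk X s) k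
      ((((HT hC.hull x₀).src g : X) : ℂ), (((HT hC.hull x₀).tgt g : X) : ℂ)) := by
  have hM := hC.hM
  have hsh := Foot.src_hub hC hd
  have hsb := Foot.src_black hC hd
  have hsg := Foot.src_gbox hC hd
  obtain ⟨⟨h1, dd, hd1, hd2⟩, h2, h3, y, hy, l, hl, hlm⟩ := hd
  obtain ⟨m, u, u0, um, u1, u2⟩ := HT_seq hC.hull x₀ hl
  have hyE : u m ∈ outHub M X Bl₁ k := by
    rw [um]
    exact (mem_hb_core hC.hull x₀).1 (rim_sub_hb hy)
  have hyco : u m ∉ oco M X Bl₁ k := by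
    rw [um]
    exact hy.1.1
  -- all sites of the walk are white and in the gate box
  have hw : ∀ i ≤ m, s (u i) = false ∧ u i ∈ gbox M k := by
    intro i hi
    rcases u2 i hi with h4 | ⟨g', hg', h4⟩
    · rw [h4]; exact ⟨h2, h3⟩
    · rw [← h4]; exact ⟨(hlm g' hg').1, (hlm g' hg').2⟩
  have hdis : Disjoint (inHub M X Wh₁ k) (outHub M X Bl₁ k) :=
    (H995.hbox_disj hM k).mono (hC.good.inSub k) (hC.good.outSub k)
  -- none is in the inner core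
  have hnc : ∀ i ≤ m, u i ∉ core (nbr X) (X ∩ ball (pin M k) (sd M)) Wh₁ := by
    intro i hi hc
    have key : ∀ j, i + j ≤ m →
        u (i + j) ∈ core (nbr X) (X ∩ ball (pin M k) (sd M)) Wh₁ := by
      intro j
      induction j with
      | zero => intro _; exact hc
      | succ j ih =>
        intro hj
        exact ico_step hC (ih (by omega)) (u1 (i + j) (by omega)) (hw _ hj).1
    have h4 := key (m - i) (by omega)
    rw [show i + (m - i) = m by omega] at h4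
    exact Set.disjoint_left.1 hdis (H678.core_sub_hub h4) hyE
  have hni : ∀ i ≤ m, u i ∉ inHub M X Wh₁ k := fun i hi hc =>
    hnc i hi (ico_of_white hC hc (hw i hi).1)
  have hex : ∃ i, i ≤ m ∧ u i ∈ outHub M X Bl₁ k := ⟨m, le_rfl, hyE⟩
  set n := Nat.find hex with hn
  obtain ⟨hnm, hnE⟩ := Nat.find_spec hex
  have hbefore : ∀ i < n, u i ∉ outHub M X Bl₁ k := fun i hi hh =>
    Nat.find_min hex hi ⟨by omega, hh⟩
  have hst : nbr X (((HT hC.hull x₀).src g : X) : ℂ) (u 0) := by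
    rw [u0]
    exact HT_nbr hC.hull x₀ g
  have hrim : u n ∈ outRim M X Bl₁ k := by
    refine ⟨hnE, fun hc => ?_⟩
    rcases Nat.eq_zero_or_pos n with h0 | h0
    · rw [h0] at hc
      exact Set.disjoint_left.1 hdis hsh (H678.hub_step hc (nbr_symm hst))
    · have h5 := u1 (n - 1) (by omega)
      rw [Nat.sub_add_cancel h0] at h5
      exact hbefore (n - 1) (by omega) (H678.hub_step hc (nbr_symm h5))
  have hinr : (((HT hC.hull x₀).src g : X) : ℂ) ∈ inRim M X Wh₁ k := ⟨hsh, h1.1⟩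
  refine ⟨n + 1, fun i => if i = 0 then (((HT hC.hull x₀).src g : X) : ℂ) else u (i - 1),
    Nat.succ_pos n, ?_, by simp, by simp [u0], ?_, ?_, ?_, ?_⟩
  · intro i hi
    rcases Nat.eq_zero_or_pos i with h0 | h0
    · subst h0
      simpa using hst
    · have e1 : i ≠ 0 := by omega
      have e2 : i + 1 ≠ 0 := by omega
      simp only [e1, e2, if_false]
      have := u1 (i - 1) (by omega)
      rwa [show i - 1 + 1 = i + 1 - 1 by omega] at this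
  · rw [inRim_bk hC]
    simpa using hinr
  · rw [outRim_bk hC]
    simpa using hrim
  · intro i hi hin
    have e1 : i ≠ 0 := by omega
    simp only [e1, if_false]
    rw [inHub_bk hC, outHub_bk hC]
    refine ⟨fun h4 => ?_, hni _ (by omega), hbefore _ (by omega)⟩
    have h5 := (hw (i - 1) (by omega)).1
    rw [h4.2] at h5
    exact absurd h5 (by decide)
  · intro i hi
    rcases Nat.eq_zero_or_pos i with h0 | h0
    · subst h0
      simpa using hsg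
    · have e1 : i ≠ 0 := by omega
      simp only [e1, if_false]
      exact (hw (i - 1) (by omega)).2

end foot

/-! ### the frame -/

section frame

variable (hC : Col M X b Bl₁ Wh₁ Bl₂ Wh₂ s)
include hC

variable {x₀ : X} {d : ℕ → Fc X b × ZMod 3} {P Q : ℕ → Set X}

/-- The data of the ring in the form of helper419. -/
theorem w1_of {i₀ : ℂ} (hi₀ : i₀ ∈ X) (hin : nsup i₀ ≤ 1 - ms M / 8) (x₀ : X)
    (hdp : ∀ k, d (k + nc M) = d k) (hd : ∀ k, H419.Foot hC.hull x₀ M Bl₁ Wh₁ s k (d k)) :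
    ∃ P Q, W1 hC x₀ d P Q P Q (fun k => k) (fun k => k) ∧
      ∃ t, LoopT (HT hC.hull x₀) (fun v => s v.1) (nc M) (d 0) t ∧
        (∀ k, ((HT hC.hull x₀).st (fun v => s v.1))^[t k] (d 0) = d k) ∧
        ∀ k n, t k ≤ n → n < t (k + 1) →
          (HT hC.hull x₀).src (((HT hC.hull x₀).st (fun v => s v.1))^[n] (d 0)) ∈ vs (reg M k) ∧
          (HT hC.hull x₀).tgt (((HT hC.hull x₀).st (fun v => s v.1))^[n] (d 0)) ∈ vs (reg M k) ∧
          (HT hC.hull x₀).apex (((HT hC.hull x₀).st (fun v => s v.1))^[n] (d 0)) ∈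
            vs (reg M k) := by
  obtain ⟨P, Q, h1, h2, h3⟩ := comb_loop hC hi₀ hin x₀ hdp hd
  obtain ⟨g₀, hg⟩ := hC.exists_dart x₀ ⟨b 0, hC.hull.mem 0⟩
  exact ⟨P, Q, ⟨⟨h1, hd⟩, ⟨⟨h1, hd⟩, g₀, hg, h2 g₀ hg⟩⟩, h3⟩

/-- Every walk from the centre to the hull meets the main class. -/
theorem sep_of {Pf Qf P Q : ℕ → Set X} {γ ρ : ℕ → ℕ} (h : W1 hC x₀ d Pf Qf P Q γ ρ) {i₀ : ℂ}
    (hi₀ : i₀ ∈ X) (hin : nsup i₀ ≤ 1 - ms M / 8) {e : Fc X b × ZMod 3}
    (he : ∀ u v : ℂ, u ∈ I0 M X Bl₁ Wh₁ Bl₂ Wh₂ i₀ → nbr X u v →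
      v ∉ I0 M X Bl₁ Wh₁ Bl₂ Wh₂ i₀ →
      ∃ g, (HT hC.hull x₀).Rel (fun v => s v.1) e g ∧ (((HT hC.hull x₀).src g : X) : ℂ) = v)
    (l : List (Fc X b × ZMod 3))
    (hl : (HT hC.hull x₀).Walk ⟨i₀, hi₀⟩ ⟨b 0, hC.hull.mem 0⟩ l) :
    ∃ g, (HT hC.hull x₀).Rel (fun v => s v.1) e g ∧
      ((HT hC.hull x₀).src g = ⟨i₀, hi₀⟩ ∨
        ∃ f ∈ l, (HT hC.hull x₀).tgt f = (HT hC.hull x₀).src g) := by
  have hms := ms_pos hC.hM
  obtain ⟨m, u, u0, um, u1, u2⟩ := HT_seq hC.hull x₀ hl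
  have hi0 : u 0 ∈ I0 M X Bl₁ Wh₁ Bl₂ Wh₂ i₀ := by
    rw [u0]
    refine H592.mem_comp_self ⟨hi₀, fun hE => ?_⟩
    have := h.fw.E0_nsup hE
    linarith
  have hbn : u m ∉ I0 M X Bl₁ Wh₁ Bl₂ Wh₂ i₀ := by
    rw [um]
    intro hc
    have h1 := h.fw.I0_nsup hin hc
    have h2 := hC.far 0
    simp only at h1
    linarith
  have hex : ∃ i, i ≤ m ∧ u i ∉ I0 M X Bl₁ Wh₁ Bl₂ Wh₂ i₀ := ⟨m, le_rfl, hbn⟩
  set n := Nat.find hex with hn
  obtain ⟨hnm, hnI⟩ := Nat.find_spec hex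
  rw [← hn] at hnm hnI
  have hn0 : 0 < n := by
    rcases Nat.eq_zero_or_pos n with h0 | h0
    · rw [h0] at hnI; exact absurd hi0 hnI
    · exact h0
  have hprev : u (n - 1) ∈ I0 M X Bl₁ Wh₁ Bl₂ Wh₂ i₀ := by
    by_contra hc
    exact Nat.find_min hex (m := n - 1) (by omega) ⟨by omega, hc⟩
  have h5 := u1 (n - 1) (by omega)
  rw [Nat.sub_add_cancel hn0] at h5
  obtain ⟨g, hg, hgs⟩ := he _ _ hprev h5 hnI
  refine ⟨g, hg, ?_⟩
  rcases u2 n hnm with h6 | ⟨f, hf, h6⟩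
  · left
    apply Subtype.ext
    rw [hgs, h6]
  · right
    refine ⟨f, hf, Subtype.ext ?_⟩
    rw [h6, hgs]

end frame

/-- **The frame exists**, for every admissible choice of the feet. -/
theorem exists_frame (w : W0) (x₀ : w.X) {col : w.X → Bool} (hcol : ∀ v, s v.1 = col v)
    (hC : Col M w.X w.b Bl₁ Wh₁ Bl₂ Wh₂ s) (hM : 8 ≤ M) (hb : ∀ j, 3 / 2 ≤ nsup (w.b j))
    {i₀ : ℂ} (hi₀ : i₀ ∈ w.X) (hin : nsup i₀ ≤ 1 / 2)
    (hB : w.B = w.X \ I0 M w.X Bl₁ Wh₁ Bl₂ Wh₂ i₀) {d : ℕ → w.D}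
    (hdp : ∀ k, d (k + nc M) = d k) (hd : ∀ k, H419.Foot w.hull x₀ M Bl₁ Wh₁ s k (d k)) :
    ∃ F : Frame M w x₀ col, F.o = d 0 ∧ ∀ k, ((TP w x₀).st col)^[F.t k] F.o = d k := by
  obtain rfl : (fun v : w.X => s v.1) = col := funext hcol
  have hM0 : 0 < M := hC.hM
  have hms := ms_pos hM0
  have hms8 := H659.ms_le_eighth hM
  have hin' : nsup i₀ ≤ 1 - ms M / 8 := by linarith
  have : Finite (Fc w.X w.b) := w.hull.finite_Fc
  have hPl : (TP w x₀).Planar := HT_planar w.hull x₀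
  have hnl : ∀ f, (TP w x₀).src f ≠ (TP w x₀).tgt f := fun f => Frame.noloop w x₀ f
  obtain ⟨P, Q, hW, t, hL, hit, hseen⟩ := w1_of hC hi₀ hin' x₀ hdp hd
  obtain ⟨m₀, hmi, hmain⟩ := hW.exists_main hi₀ hin'
  have hF : H659.Feet (TP w x₀) (fun v : w.X => s v.1) (d 0) (nc M) t :=
    H659.feet_of_loopT' hL (by unfold nc; omega)
  have hsep := sep_of hC hW hi₀ hin' hmain
  have hmain' : H659.Main (TP w x₀) (fun v : w.X => s v.1) (d 0) t
      (((TP w x₀).st fun v : w.X => s v.1)^[m₀] (d 0)) := by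
    refine H659.Main.of_sep (z := ⟨i₀, hi₀⟩) (ω := ⟨w.b 0, w.hull.mem 0⟩) hF hmi ⟨m₀, rfl⟩
      (fun l hl => hsep l hl) (fun k => ?_)
    exact H659.hz_comb hM w.hull x₀ hb (z := ⟨i₀, hi₀⟩) hin
      (fun k i h1 h2 => (hseen k i h1 h2).1) hL.inc k
  have hO : ∀ x : w.X, piX w x = w.O ↔ x.1 ∈ w.B := fun x => H609.pi_B x.2
  have hEB : E0 M w.X Bl₁ Wh₁ Bl₂ Wh₂ ⊆ w.B := by
    rw [hB]
    exact H419.Rb.E0_sub_B i₀
  have hs1 : ∀ k, piX w ((TP w x₀).src (((TP w x₀).st fun v : w.X => s v.1)^[k] (d 0))) = w.O ∧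
      piX w ((TP w x₀).tgt (((TP w x₀).st fun v : w.X => s v.1)^[k] (d 0))) = w.O := fun k =>
    ⟨(hO _).2 (hEB (hW.og.seen k).1.1), (hO _).2 (hEB (hW.og.seen k).1.2)⟩
  have hs2 : ∀ f, piX w ((TP w x₀).src f) = w.O → piX w ((TP w x₀).tgt f) ≠ w.O →
      ∃ g, (TP w x₀).Rel (fun v : w.X => s v.1)
        (((TP w x₀).st fun v : w.X => s v.1)^[m₀] (d 0)) g ∧
        (TP w x₀).src f = (TP w x₀).src g := by
    intro f hf1 hf2
    have e1 : ((TP w x₀).src f).1 ∈ w.B := (hO _).1 hf1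
    have e2 : ((TP w x₀).tgt f).1 ∉ w.B := fun h => hf2 ((hO _).2 h)
    rw [hB] at e1 e2
    have e3 : ((TP w x₀).tgt f).1 ∈ I0 M w.X Bl₁ Wh₁ Bl₂ Wh₂ i₀ := by
      by_contra hc
      exact e2 ⟨((TP w x₀).tgt f).2, hc⟩
    obtain ⟨g, hg, hgs⟩ := hmain _ _ e3 (nbr_symm (HT_nbr w.hull x₀ f)) e1.2
    exact ⟨g, hg, Subtype.ext hgs.symm⟩
  obtain ⟨n, c, τ, h1, -, h3, -⟩ := H659.exists_loop_foot (π := piX w) (O := w.O) hPl hnl hF hmi
    ⟨m₀, rfl⟩ hs1 hs2 hmain' 0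
  rw [hL.zero, iterate_zero, id] at h1 h3
  rw [show (fun k => t (0 + k) - 0) = t by
    funext k
    rw [zero_add, Nat.sub_zero]] at h3
  have hbk : (blk fun v : w.X => s v.1) = bk w.X s := by
    ext z
    exact ⟨fun ⟨h, hz⟩ => ⟨h, hz⟩, fun ⟨h, hz⟩ => ⟨h, hz⟩⟩
  refine ⟨⟨d 0, t, n, c, τ, hL, fun k i a1 a2 => hseen k i a1 a2, fun k => ?_, h1, h3⟩, rfl,
    hit⟩
  have hik : ((TP w x₀).st fun v : w.X => s v.1)^[t k] (d 0) = d k := hit k
  rw [hik, hbk]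
  exact foot_of hC (hd k)

/-- The frame exists. -/
theorem nonempty_frame (w : W0) (x₀ : w.X) {col : w.X → Bool} (hcol : ∀ v, s v.1 = col v)
    (hC : Col M w.X w.b Bl₁ Wh₁ Bl₂ Wh₂ s) (hM : 8 ≤ M) (hb : ∀ j, 3 / 2 ≤ nsup (w.b j))
    {i₀ : ℂ} (hi₀ : i₀ ∈ w.X) (hin : nsup i₀ ≤ 1 / 2)
    (hB : w.B = w.X \ I0 M w.X Bl₁ Wh₁ Bl₂ Wh₂ i₀) : Nonempty (Frame M w x₀ col) := by
  obtain ⟨d, hdp, hd⟩ := hC.exists_feet x₀
  obtain ⟨F, -, -⟩ := exists_frame w x₀ hcol hC hM hb hi₀ hin hB hdp hd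
  exact ⟨F⟩

end Vale.Agent.P148.R2.H112
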