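import Vale.Agent.P148.R2.H112.Frame2
import Vale.Agent.P148.R2.H126.Rf

/-!
# P148: the frame with the canonical feet
-/

open Set Metric Relation Filter Function
open scoped Classical

namespace Vale.Agent.P148.R2.H112

open Vale.Agent.P148.R2.N (ms nc)
open Vale.Agent.P148.R2.H592 (HullTri)
open Vale.Agent.P148.R2.H995 (nsup)
open Vale.Agent.P148.R2.H609 (TP)
open Vale.Agent.P148.R2.H172 (Frame combLaw cs)
open Vale.Agent.P148.R2.H678 (wd wrd cw)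
open Vale.Agent.P148.R2.H938 (pc)
open Vale.Agent.P148.R2.H126 (rf rf_foot rf_add)

variable {M : ℕ} {X : Set ℂ} {b : ZMod 3 → ℂ}

/-- The frame of the canonical feet, comb data. -/
theorem frame_wrd_rf (h : HullTri X b) {Bl₁ Wh₁ Bl₂ Wh₂ : Set ℂ} {s : ℂ → Bool}
    (hC : H419.Col M X b Bl₁ Wh₁ Bl₂ Wh₂ s) (hM : 8 ≤ M) (hb : ∀ j, 3 / 2 ≤ nsup (b j))
    (hX : (X ∩ ball (0 : ℂ) (1 / 2)).Nonempty) (x₀ : X) {col : X → Bool}
    (hcol : ∀ v : X, s v.1 = col v) :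
    ∃ F : Frame M (wrd h (H419.E0 M X Bl₁ Wh₁ Bl₂ Wh₂)) x₀ col, F.o = rf h x₀ M col 0 ∧
      ∀ k, ((TP (wrd h (H419.E0 M X Bl₁ Wh₁ Bl₂ Wh₂)) x₀).st col)^[F.t k] F.o =
        rf h x₀ M col k := by
  have e : (fun v : X => s v.1) = col := funext hcol
  refine frame_wrd h hC hM hb hX x₀ hcol (d := rf h x₀ M col) (fun k => rf_add h x₀ M col k)
    (fun k => ?_)
  have := rf_foot hC x₀ k
  rwa [e] at this

variable [Fintype X]

/-- **The frame of the canonical feet** of a good pair of colourings. -/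
theorem frame_rf (hM0 : 0 < M) (h : HullTri X b) (hM : 8 ≤ M) (hb : ∀ j, 3 / 2 ≤ nsup (b j))
    (hX : (X ∩ ball (0 : ℂ) (1 / 2)).Nonempty) {c₁ c₂ : X → Bool}
    (hA : (combLaw hM0 X (Subtype.val : X → ℂ)).A0 c₁ c₂) (x₀ : X) :
    ∃ F : Frame M (wd h M (cw M c₁ c₂)) x₀ (cw M c₁ c₂), F.o = rf h x₀ M (cw M c₁ c₂) 0 ∧
      ∀ k, ((TP (wd h M (cw M c₁ c₂)) x₀).st (cw M c₁ c₂))^[F.t k] F.o =
        rf h x₀ M (cw M c₁ c₂) k := by
  have hC := H678.col_of_A0 hM0 h (far_of hM hb) hA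
  have key := frame_wrd_rf h hC hM hb hX x₀ (col := cw M c₁ c₂) (H678.cs_val _)
  rw [← H678.E0X_eq] at key
  exact key

end Vale.Agent.P148.R2.H112
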