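import Vale.Agent.P148.R2.H959.Far
import Vale.Agent.P148.R2.H995.Loc
import Vale.Agent.P148.R2.H959.Reg
import Vale.Agent.P148.R2.H995.Ring

/-!
# P148, row W1: sites along a segment, boundary edges of the free region near a cell

* `seg_joined` : two sites are joined by sites close to the segment between them, if the sites are
  dense along the segment.
* `inner_mem` : a component of the complement of the explored set which contains the centre contains
  all sites of `{nsup < 1 - a / 8 - 2 ρ}`.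
* `arc_nonempty` : near every straight cell there is an edge from the free region to the explored set.
-/

open Set Relation Metric

namespace Vale.Agent.P148.R2.H112

open Vale.Agent.P148.R2.H592 (nbr nbr_symm ConnIn connIn_ball)
open Vale.Agent.P148.R2.H959 (Jn)
open Vale.Agent.P148.R2.H995 (nsup)
open Vale.Agent.P148.R2.N (ms nc cellC ms_pos ms_le_one)

/-- Sites near a segment. -/
def tube (x y : ℂ) (r : ℝ) : Set ℂ := {z | ∃ p ∈ segment ℝ x y, dist z p < r}

theorem mem_seg (x y : ℂ) {t : ℝ} (h0 : 0 ≤ t) (h1 : t ≤ 1) : x + (t : ℂ) * (y - x) ∈ segment ℝ x y := by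
  rw [segment_eq_image]
  refine ⟨t, ⟨h0, h1⟩, ?_⟩
  simp only [Complex.real_smul]
  push_cast
  ring

/-- **Two sites are joined along the segment between them.** -/
theorem seg_joined {X : Set ℂ} (hX : X.Finite) {x y : ℂ} (hx : x ∈ X) (hy : y ∈ X) {ρ : ℝ}
    (hρ : 0 < ρ) (hd : ∀ z ∈ segment ℝ x y, ∃ u ∈ X, dist u z < ρ) :
    Jn X (X ∩ tube x y (2 * ρ)) x y := by
  classical
  obtain ⟨n, hn⟩ := exists_nat_gt (dist x y / ρ)
  have hn0 : 0 < n := by
    rcases Nat.eq_zero_or_pos n with h | h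
    · rw [h, Nat.cast_zero] at hn
      have : 0 ≤ dist x y / ρ := by positivity
      linarith
    · exact h
  have hn0' : (0 : ℝ) < n := by exact_mod_cast hn0
  set p : ℕ → ℂ := fun i => x + ((i / n : ℝ) : ℂ) * (y - x) with hp
  have hps : ∀ i ≤ n, p i ∈ segment ℝ x y := fun i hi =>
    mem_seg x y (by positivity) ((div_le_one hn0').2 (by exact_mod_cast hi))
  have hstep : ∀ i, dist (p (i + 1)) (p i) < ρ := by
    intro i
    rw [Complex.dist_eq]
    have e : p (i + 1) - p i = ((1 / n : ℝ) : ℂ) * (y - x) := by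
      rw [hp]
      push_cast
      field_simp
      ring
    rw [e, norm_mul, Complex.norm_real, Real.norm_eq_abs, abs_of_pos (by positivity),
      ← Complex.dist_eq, dist_comm y x, one_div, inv_mul_lt_iff₀ hn0']
    rwa [div_lt_iff₀ hρ] at hn
  have hex : ∀ i, ∃ u, i ≤ n → (u ∈ X ∧ dist u (p i) < ρ) ∧ (i = 0 → u = x) ∧ (i = n → u = y) := by
    intro i
    by_cases hi : i ≤ n
    · by_cases h0 : i = 0
      · refine ⟨x, fun _ => ⟨⟨hx, ?_⟩, fun _ => rfl, fun h => ?_⟩⟩
        · rw [h0, hp]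
          simp [hρ]
        · omega
      · by_cases h1 : i = n
        · refine ⟨y, fun _ => ⟨⟨hy, ?_⟩, fun h => absurd h h0, fun _ => rfl⟩⟩
          rw [h1, hp]
          have : ((n / n : ℝ) : ℂ) = 1 := by
            rw [div_self hn0'.ne']; simp
          simp only [this, one_mul, add_sub_cancel, dist_self]
          exact hρ
        · obtain ⟨u, hu, hu2⟩ := hd _ (hps i hi)
          exact ⟨u, fun _ => ⟨⟨hu, hu2⟩, fun h => absurd h h0, fun h => absurd h h1⟩⟩
    · exact ⟨0, fun h => absurd h hi⟩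
  choose u hu using hex
  have key : ∀ i ≤ n, Jn X (X ∩ tube x y (2 * ρ)) x (u i) := by
    intro i
    induction i with
    | zero =>
      intro _
      rw [(hu 0 (Nat.zero_le n)).2.1 rfl]
    | succ i ih =>
      intro hi
      refine (ih (by omega)).trans ?_
      have h1 := (hu i (by omega)).1
      have h2 := (hu (i + 1) hi).1
      have h3 : u i ∈ X ∩ ball (p i) (2 * ρ) := ⟨h1.1, by rw [mem_ball]; linarith [h1.2]⟩
      have h4 : u (i + 1) ∈ X ∩ ball (p i) (2 * ρ) := by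
        refine ⟨h2.1, ?_⟩
        rw [mem_ball]
        have := dist_triangle (u (i + 1)) (p (i + 1)) (p i)
        linarith [hstep i, h2.2]
      have h5 := (connIn_ball hX (p i) (2 * ρ)).2 _ h3 _ h4
      refine H959.Jn.mono (inter_subset_inter_right _ fun z hz => ?_) h5
      exact ⟨p i, hps i (by omega), hz⟩
  have := key n le_rfl
  rwa [(hu n le_rfl).2.2 rfl] at this

/-- The sup norm along a tube. -/
theorem tube_nsup {x y z : ℂ} {r s : ℝ} (hz : z ∈ tube x y r) (hx : nsup x ≤ s) (hy : nsup y ≤ s) :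
    nsup z < s + r := by
  obtain ⟨p, hp, hzp⟩ := hz
  have h1 : nsup p ≤ s := (H995.convex_nsup_le s).segment_subset hx hy hp
  have h2 := H995.nsup_sub_le z p 0
  rw [sub_zero, sub_zero] at h2
  linarith

/-- A path from `I` to the complement of `I` leaves `I` through an edge. -/
theorem exists_exit {X Y I : Set ℂ} {x y : ℂ} (h : Jn X Y x y) (hx : x ∈ I) (hy : y ∉ I) :
    ∃ u ∈ I, ∃ v, v ∉ I ∧ nbr X u v ∧ u ∈ Y ∧ v ∈ Y := by
  induction h with
  | refl => exact absurd hx hy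
  | @tail b c hb hbc ih =>
    by_cases hb' : b ∈ I
    · exact ⟨b, hb', c, hy, hbc.1, hbc.2.1, hbc.2.2⟩
    · exact ih hb'

/-- A set closed under the edges off `E` is closed under paths off `E`. -/
theorem closed_path {X E I Y : Set ℂ} (hc : ∀ u ∈ I, ∀ v, nbr X u v → v ∉ E → v ∈ I) {x y : ℂ}
    (h : Jn X Y x y) (hY : ∀ z ∈ Y, z ∉ E) (hx : x ∈ I) : y ∈ I := by
  by_contra hy
  obtain ⟨u, hu, v, hv, huv, -, hvY⟩ := exists_exit h hx hy
  exact hv (hc u hu v huv (hY v hvY))

section world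

variable {X E I : Set ℂ} {M : ℕ} {ρ : ℝ}

/-- **The free region contains the sites of the inner square.** -/
theorem inner_mem (hM : 0 < M) (hX : X.Finite) (hρ : 0 < ρ) (hρa : ρ ≤ ms M / 64)
    (hd : ∀ z : ℂ, nsup z ≤ 1 + ms M → ∃ u ∈ X, dist u z < ρ)
    (h1 : ∀ z ∈ E, 1 - ms M / 8 < nsup z) (h5 : ∀ z ∈ X, ‖z‖ < 1 - ms M / 8 → z ∈ I)
    (hc : ∀ u ∈ I, ∀ v, nbr X u v → v ∉ E → v ∈ I) {z : ℂ} (hz : z ∈ X)
    (hz2 : nsup z ≤ 1 - ms M / 8 - 2 * ρ) : z ∈ I := by
  have h0 := ms_pos hM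
  have hm := ms_le_one (M := M)
  have n0 : nsup (0 : ℂ) = 0 := by simp [nsup]
  obtain ⟨q, hq, hq2⟩ := hd 0 (by rw [n0]; linarith)
  rw [dist_zero_right] at hq2
  have hqI : q ∈ I := h5 q hq (by linarith)
  have hqn : nsup q ≤ 1 - ms M / 8 - 2 * ρ := by
    have := H995.nsup_le_norm q
    linarith
  have h2 : Jn X (X ∩ tube q z (2 * ρ)) q z := seg_joined hX hq hz hρ fun w hw =>
    hd w (le_trans ((H995.convex_nsup_le (1 - ms M / 8 - 2 * ρ)).segment_subset hqn hz2 hw)
      (by linarith))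
  refine closed_path hc h2 (fun w hw hwE => ?_) hqI
  have h3 := tube_nsup hw.2 hqn hz2
  linarith [h1 w hwE]

/-- Coordinates of the points of the radial segment of a straight cell. -/
theorem radial_nsup (hM : 0 < M) {s : ℕ} (hs : s % (2 * M + 1) ≠ 2 * M) {t : ℝ}
    (ht : -(3 / 4) ≤ t) :
    nsup (cellC M s + Complex.I ^ (s / (2 * M + 1)) * ((t * ms M : ℝ) : ℂ)) =
      1 + ms M / 2 + t * ms M := by
  have h0 := ms_pos hM
  have hm := ms_le_one (M := M)
  have hM1 := N.M_mul_ms hM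
  unfold cellC
  rw [← mul_add, H959.nsup_I_pow_mul]
  have hlt : s % (2 * M + 1) < 2 * M := by
    have := Nat.mod_lt s (show 0 < 2 * M + 1 by omega)
    omega
  have hlt' : ((s % (2 * M + 1) : ℕ) : ℝ) ≤ 2 * M - 1 := by
    have : ((s % (2 * M + 1) : ℕ) : ℝ) + 1 ≤ 2 * M := by exact_mod_cast hlt
    linarith
  have hge : (0 : ℝ) ≤ ((s % (2 * M + 1) : ℕ) : ℝ) := by positivity
  unfold nsup
  simp only [Complex.add_re, Complex.add_im, Complex.ofReal_re, Complex.ofReal_im, add_zero]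
  have e1 : ((s % (2 * M + 1) : ℕ) : ℝ) * ms M ≤ 2 - ms M := by nlinarith
  have e2 : 0 ≤ ((s % (2 * M + 1) : ℕ) : ℝ) * ms M := by positivity
  have e3 : -(3 / 4) * ms M ≤ t * ms M := by nlinarith
  rw [max_eq_left]
  · exact abs_of_nonneg (by linarith)
  · rw [abs_le]
    refine ⟨?_, ?_⟩
    · have := neg_le_abs (1 + ms M / 2 + t * ms M)
      have := le_abs_self (1 + ms M / 2 + t * ms M)
      linarith
    · have := le_abs_self (1 + ms M / 2 + t * ms M)
      linarith

/-- **Near every straight cell there is an edge from the free region to the explored set.** -/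
theorem arc_nonempty (hM : 0 < M) (hX : X.Finite) (hρ : 0 < ρ) (hρa : ρ ≤ ms M / 64)
    (hd : ∀ z : ℂ, nsup z ≤ 1 + ms M → ∃ u ∈ X, dist u z < ρ)
    (h1 : ∀ z ∈ E, 1 - ms M / 8 < nsup z) (h2 : ∀ z ∈ I, nsup z < 1 + 5 * ms M / 8)
    (h5 : ∀ z ∈ X, ‖z‖ < 1 - ms M / 8 → z ∈ I)
    (hc : ∀ u ∈ I, ∀ v, nbr X u v → v ∉ E → v ∈ I) {s : ℕ} (hs : s % (2 * M + 1) ≠ 2 * M) :
    ∃ u ∈ I, ∃ v ∈ E, nbr X u v ∧ u ∈ ball (cellC M s) (ms M) ∧ v ∈ ball (cellC M s) (ms M) := by
  have h0 := ms_pos hM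
  set w : ℂ := Complex.I ^ (s / (2 * M + 1)) with hw
  have hwn : ‖w‖ = 1 := by rw [hw, norm_pow, Complex.norm_I, one_pow]
  set p1 : ℂ := cellC M s + w * ((-(3 / 4) * ms M : ℝ) : ℂ) with hp1
  set p2 : ℂ := cellC M s + w * ((1 / 4 * ms M : ℝ) : ℂ) with hp2
  have n1 : nsup p1 = 1 + ms M / 2 + -(3 / 4) * ms M := radial_nsup hM hs le_rfl
  have n2 : nsup p2 = 1 + ms M / 2 + 1 / 4 * ms M := radial_nsup hM hs (by norm_num)
  obtain ⟨u1, hu1, hu1'⟩ := hd p1 (by rw [n1]; linarith)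
  obtain ⟨u2, hu2, hu2'⟩ := hd p2 (by rw [n2]; linarith)
  have m1 : nsup u1 ≤ 1 - ms M / 4 + ρ := by
    have := H995.nsup_sub_le u1 p1 0
    rw [sub_zero, sub_zero, n1] at this
    linarith
  have m2 : 1 + 5 * ms M / 8 ≤ nsup u2 := by
    have := H995.nsup_sub_le p2 u2 0
    rw [sub_zero, sub_zero, n2, dist_comm] at this
    linarith
  have m2' : nsup u2 ≤ 1 + ms M - ρ := by
    have := H995.nsup_sub_le u2 p2 0
    rw [sub_zero, sub_zero, n2] at this
    linarith
  have hI1 : u1 ∈ I := inner_mem hM hX hρ hρa hd h1 h5 hc hu1 (by linarith)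
  have hI2 : u2 ∉ I := fun h => absurd (h2 u2 h) (not_lt.2 m2)
  have hj := seg_joined hX hu1 hu2 hρ fun z hz =>
    hd z (le_trans ((H995.convex_nsup_le (1 + ms M)).segment_subset
      (show nsup u1 ≤ 1 + ms M by linarith) (show nsup u2 ≤ 1 + ms M by linarith) hz) le_rfl)
  obtain ⟨u, hu, v, hv, huv, huY, hvY⟩ := exists_exit hj hI1 hI2
  have hvE : v ∈ E := by
    by_contra hvE
    exact hv (hc u hu v huv hvE)
  have hball : ∀ z ∈ X ∩ tube u1 u2 (2 * ρ), z ∈ ball (cellC M s) (ms M) := by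
    rintro z ⟨-, q, hq, hzq⟩
    have d1 : dist u1 (cellC M s) < 3 / 4 * ms M + ρ := by
      have h3 := dist_triangle u1 p1 (cellC M s)
      have h4 : dist p1 (cellC M s) = 3 / 4 * ms M := by
        rw [Complex.dist_eq, hp1, add_sub_cancel_left, norm_mul, hwn, one_mul, Complex.norm_real,
          Real.norm_eq_abs, abs_mul, abs_neg, abs_of_pos h0, abs_of_pos (by norm_num)]
      linarith
    have d2 : dist u2 (cellC M s) < 3 / 4 * ms M + ρ := by
      have h3 := dist_triangle u2 p2 (cellC M s)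
      have h4 : dist p2 (cellC M s) = 1 / 4 * ms M := by
        rw [Complex.dist_eq, hp2, add_sub_cancel_left, norm_mul, hwn, one_mul, Complex.norm_real,
          Real.norm_eq_abs, abs_mul, abs_of_pos h0, abs_of_pos (by norm_num)]
      linarith
    have d3 : q ∈ ball (cellC M s) (3 / 4 * ms M + ρ) :=
      (convex_ball _ _).segment_subset (mem_ball.2 d1) (mem_ball.2 d2) hq
    rw [mem_ball] at d3 ⊢
    have := dist_triangle z q (cellC M s)
    linarith
  exact ⟨u, hu, v, hvE, huv, hball u huY, hball v hvY⟩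

end world

end Vale.Agent.P148.R2.H112
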